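import Mathlib

/-! # P097B : continuous arguments of a moving vector -/

set_option linter.all false

namespace Vale.Agent.P097B

open Real Set Filter Topology

/-- `θ` is an argument of the non-zero vector `v` -/
def Ar (v : ℂ) (θ : ℝ) : Prop := ∃ r : ℝ, 0 < r ∧ v.re = r * cos θ ∧ v.im = r * sin θ

theorem ar_iff {v : ℂ} {θ : ℝ} :
    Ar v θ ↔ ∃ r : ℝ, 0 < r ∧ v = (r : ℂ) * Complex.exp ((θ : ℂ) * Complex.I) := by
  constructor
  · rintro ⟨r, h0, h1, h2⟩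
    refine ⟨r, h0, Complex.ext ?_ ?_⟩
    · simp [h1, Complex.exp_ofReal_mul_I_re, Complex.exp_ofReal_mul_I_im]
    · simp [h2, Complex.exp_ofReal_mul_I_re, Complex.exp_ofReal_mul_I_im]
  · rintro ⟨r, h0, h1⟩
    refine ⟨r, h0, ?_, ?_⟩
    · simp [h1, Complex.exp_ofReal_mul_I_re, Complex.exp_ofReal_mul_I_im]
    · simp [h1, Complex.exp_ofReal_mul_I_re, Complex.exp_ofReal_mul_I_im]

theorem Ar.ne {v : ℂ} {θ : ℝ} (h : Ar v θ) : v ≠ 0 := by
  obtain ⟨r, h0, h1⟩ := ar_iff.1 h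
  rw [h1]
  exact mul_ne_zero (by exact_mod_cast h0.ne') (Complex.exp_ne_zero _)

theorem Ar.add_arg {v v' : ℂ} {θ : ℝ} (h : Ar v θ) (h' : v' ≠ 0) :
    Ar v' (θ + Complex.arg (v' / v)) := by
  have hv := h.ne
  obtain ⟨r, h0, h1⟩ := ar_iff.1 h
  have hq : v' / v ≠ 0 := div_ne_zero h' hv
  refine ar_iff.2 ⟨r * ‖v' / v‖, mul_pos h0 (norm_pos_iff.2 hq), ?_⟩
  have e := Complex.norm_mul_exp_arg_mul_I (v' / v)
  have e2 : v' = v * (v' / v) := by field_simp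
  push_cast
  rw [add_mul, Complex.exp_add]
  calc v' = v * (v' / v) := e2
    _ = (r : ℂ) * Complex.exp ((θ : ℂ) * Complex.I) *
        ((‖v' / v‖ : ℝ) * Complex.exp (Complex.arg (v' / v) * Complex.I)) := by rw [e, ← h1]
    _ = _ := by ring

theorem Ar.rot {v : ℂ} {θ : ℝ} (h : Ar v θ) : Ar ⟨v.im, -v.re⟩ (θ - π / 2) := by
  obtain ⟨r, h0, h1, h2⟩ := h
  refine ⟨r, h0, ?_, ?_⟩
  · simp [h2, cos_sub_pi_div_two]
  · simp [h1, sin_sub_pi_div_two]

theorem Ar.cos_pos {v : ℂ} {θ : ℝ} (h : Ar v θ) : 0 < cos θ ↔ 0 < v.re := by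
  obtain ⟨r, h0, h1, h2⟩ := h
  rw [h1, mul_pos_iff_of_pos_left h0]

theorem Ar.cos_neg {v : ℂ} {θ : ℝ} (h : Ar v θ) : cos θ < 0 ↔ v.re < 0 := by
  obtain ⟨r, h0, h1, h2⟩ := h
  rw [h1]
  constructor
  · intro h; exact mul_neg_of_pos_of_neg h0 h
  · intro h; by_contra hc; push Not at hc; nlinarith [mul_nonneg h0.le hc]

theorem Ar.sin_pos {v : ℂ} {θ : ℝ} (h : Ar v θ) : 0 < sin θ ↔ 0 < v.im := by
  obtain ⟨r, h0, h1, h2⟩ := h
  rw [h2, mul_pos_iff_of_pos_left h0]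

theorem Ar.sin_neg {v : ℂ} {θ : ℝ} (h : Ar v θ) : sin θ < 0 ↔ v.im < 0 := by
  obtain ⟨r, h0, h1, h2⟩ := h
  rw [h2]
  constructor
  · intro h; exact mul_neg_of_pos_of_neg h0 h
  · intro h; by_contra hc; push Not at hc; nlinarith [mul_nonneg h0.le hc]

theorem stay {θ : ℝ → ℝ} (hc : Continuous θ) {c t₁ : ℝ} (h1 : θ t₁ < c) (h : ∀ t, θ t ≠ c) :
    ∀ t, θ t < c := by
  intro t
  by_contra hh
  push Not at hh
  obtain ⟨s, hs⟩ := intermediate_value_univ t₁ t hc ⟨h1.le, hh⟩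
  exact h s hs

theorem stay' {θ : ℝ → ℝ} (hc : Continuous θ) {c t₁ : ℝ} (h1 : c < θ t₁) (h : ∀ t, θ t ≠ c) :
    ∀ t, c < θ t := by
  intro t
  have := stay (θ := fun t => -θ t) hc.neg (c := -c) (t₁ := t₁) (by linarith)
    (fun s hs => h s (by linarith)) t
  linarith

theorem nopp {θ θ' : ℝ → ℝ} (hc : Continuous θ) (hc' : Continuous θ') {t₁ : ℝ}
    (h1 : |θ' t₁ - θ t₁| < π) (h : ∀ t, cos (θ' t - θ t) ≠ -1) : ∀ t, |θ' t - θ t| < π := by
  refine stay (θ := fun t => |θ' t - θ t|) (hc'.sub hc).abs h1 (fun t ht => h t ?_)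
  rw [← cos_abs, ht, cos_pi]

theorem Ar.cos_sub {v : ℂ} {θ θ' : ℝ} (h : Ar v θ) (h' : Ar v θ') : cos (θ' - θ) = 1 := by
  obtain ⟨r, h0, h1, h2⟩ := h
  obtain ⟨r', h0', h1', h2'⟩ := h'
  have a1 := cos_sq_add_sin_sq θ
  have a2 := cos_sq_add_sin_sq θ'
  have e1 : r * cos θ = r' * cos θ' := by rw [← h1, h1']
  have e2 : r * sin θ = r' * sin θ' := by rw [← h2, h2']
  have e3 : r ^ 2 = r' ^ 2 := by
    calc r ^ 2 = (r * cos θ) ^ 2 + (r * sin θ) ^ 2 := by linear_combination (-(r ^ 2)) * a1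
      _ = (r' * cos θ') ^ 2 + (r' * sin θ') ^ 2 := by rw [e1, e2]
      _ = r' ^ 2 := by linear_combination (r' ^ 2) * a2
  have e4 : r = r' := by nlinarith
  subst e4
  have e5 := mul_left_cancel₀ h0.ne' e1
  have e6 := mul_left_cancel₀ h0.ne' e2
  rw [Real.cos_sub, ← e5, ← e6]
  linarith

theorem uniq {v : ℝ → ℂ} {θ θ' : ℝ → ℝ} (hc : Continuous θ) (hc' : Continuous θ')
    (h : ∀ t, Ar (v t) (θ t)) (h' : ∀ t, Ar (v t) (θ' t)) {t₁ : ℝ}
    (h1 : |θ' t₁ - θ t₁| < 2 * π) : ∀ t, θ' t = θ t := by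
  have hp := pi_pos
  have k : ∀ t, |θ' t - θ t| < 2 * π → θ' t - θ t = 0 := fun t ht =>
    (cos_eq_one_iff_of_lt_of_lt (abs_lt.1 ht).1 (abs_lt.1 ht).2).1 ((h t).cos_sub (h' t))
  have k2 := nopp hc hc' (t₁ := t₁) (by rw [k t₁ h1]; simpa using hp)
    (fun t ht => by rw [(h t).cos_sub (h' t)] at ht; linarith)
  intro t
  have := k t ((k2 t).trans (by linarith))
  linarith

/-- the two vectors point to the same side of the vertical direction -/
def Pat (v v' : ℂ) : Prop :=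
  (0 < v.re ↔ 0 < v'.re) ∧ (v.re < 0 ↔ v'.re < 0) ∧ (v.re = 0 → 0 < v.im * v'.im)

theorem Pat.symm {v v' : ℂ} (h : Pat v v') : Pat v' v := by
  refine ⟨h.1.symm, h.2.1.symm, fun h0 => ?_⟩
  rw [mul_comm]
  apply h.2.2
  rcases lt_trichotomy v.re 0 with a | a | a
  · have := h.2.1.1 a; linarith
  · exact a
  · have := h.1.1 a; linarith

theorem Pat.cos_ne {v v' : ℂ} {θ θ' : ℝ} (P : Pat v v') (h : Ar v θ) (h' : Ar v' θ') :
    cos (θ' - θ) ≠ -1 := by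
  intro hc
  have hs : sin (θ' - θ) = 0 := by
    have := cos_sq_add_sin_sq (θ' - θ)
    rw [hc] at this
    nlinarith
  have e : θ' = θ + (θ' - θ) := by ring
  have e1 : cos θ' = -cos θ := by rw [e, cos_add, hc, hs]; ring
  have e2 : sin θ' = -sin θ := by rw [e, sin_add, hc, hs]; ring
  have a1 := h.cos_pos
  have a2 := h.cos_neg
  have a3 := h'.cos_pos
  have a4 := h'.cos_neg
  rcases lt_trichotomy v.re 0 with a | a | a
  · have b1 := a2.2 a
    have b2 := a4.2 (P.2.1.1 a)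
    linarith
  · have b := P.2.2 a
    obtain ⟨r, h0, h1, h2⟩ := h
    obtain ⟨r', h0', h1', h2'⟩ := h'
    rw [h2, h2', e2] at b
    nlinarith [mul_nonneg (mul_pos h0 h0').le (sq_nonneg (sin θ))]
  · have b1 := a1.2 a
    have b2 := a3.2 (P.1.1 a)
    linarith

theorem Pat.le_lt {v v' : ℂ} {θ θ' c : ℝ} (P : Pat v v') (h : Ar v θ) (h' : Ar v' θ')
    (hd : |θ' - θ| < π) (hc : cos c = 0) : (θ ≤ c → θ' ≤ c) ∧ (θ < c → θ' < c) := by
  obtain ⟨d1, d2⟩ := abs_lt.1 hd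
  have hs : sin c = 1 ∨ sin c = -1 := by
    have := cos_sq_add_sin_sq c
    rw [hc] at this
    have : (sin c - 1) * (sin c + 1) = 0 := by linarith
    rcases mul_eq_zero.1 this with a | a
    · left; linarith
    · right; linarith
  have e1 : ∀ x, cos x = -(sin c * sin (x - c)) := by
    intro x
    have e : x = c + (x - c) := by ring
    conv_lhs => rw [e, cos_add, hc]
    ring
  have p1 : 0 < cos θ ↔ 0 < cos θ' := by rw [h.cos_pos, h'.cos_pos]; exact P.1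
  have p2 : cos θ < 0 ↔ cos θ' < 0 := by rw [h.cos_neg, h'.cos_neg]; exact P.2.1
  rw [e1 θ, e1 θ'] at p1 p2
  have q1 : 0 < sin (θ' - c) → 0 < sin (θ - c) := by
    intro a
    rcases hs with b | b <;> rw [b] at p1 p2
    · have := p2.2 (by linarith); linarith
    · have := p1.2 (by linarith); linarith
  have q2 : sin (θ - c) < 0 → sin (θ' - c) < 0 := by
    intro a
    rcases hs with b | b <;> rw [b] at p1 p2
    · have := p1.1 (by linarith); linarith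
    · have := p2.1 (by linarith); linarith
  have k1 : θ ≤ c → θ' ≤ c := by
    intro a
    by_contra b
    push Not at b
    have b1 := q1 (sin_pos_of_pos_of_lt_pi (by linarith) (by linarith))
    have b2 := sin_nonpos_of_nonpos_of_neg_pi_le (x := θ - c) (by linarith) (by linarith)
    linarith
  refine ⟨k1, fun a => lt_of_le_of_ne (k1 a.le) fun b => ?_⟩
  have b1 := q2 (sin_neg_of_neg_of_neg_pi_lt (by linarith) (by linarith))
  rw [b] at b1
  simp at b1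

/-- `θ` is the continuous argument of `v` which is principal near `+∞` -/
def Lf (v : ℝ → ℂ) (θ : ℝ → ℝ) : Prop :=
  Continuous θ ∧ (∀ t, Ar (v t) (θ t)) ∧ ∀ᶠ t in atTop, |θ t| < π / 2

theorem exists_lf {v : ℝ → ℂ} (hc : Continuous v) (h0 : ∀ t, v t ≠ 0)
    (h1 : ∀ᶠ t in atTop, 0 < (v t).re) : ∃ θ, Lf v θ := by
  obtain ⟨t₁, ht⟩ := eventually_atTop.1 h1
  obtain ⟨f, ⟨f0, hf⟩, -⟩ := Complex.isCoveringMapOn_exp.existsUnique_continuousMap_lifts
    (⟨v, hc⟩ : C(ℝ, ℂ)) (a₀ := t₁) (Complex.exp_log (h0 t₁)) (fun t => h0 t)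
  have hA : ∀ t, Ar (v t) (f t).im := by
    intro t
    have e : Complex.exp (f t) = v t := congrFun hf t
    refine ⟨Real.exp (f t).re, exp_pos _, ?_, ?_⟩
    · rw [← e, Complex.exp_re]
    · rw [← e, Complex.exp_im]
  have hcf : Continuous fun t => (f t).im := Complex.continuous_im.comp f.continuous
  refine ⟨fun t => (f t).im, hcf, hA, eventually_atTop.2 ⟨t₁, fun t htt => ?_⟩⟩
  have := stay (θ := fun t => |(f (max t t₁)).im|) (c := π / 2) (t₁ := t₁)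
    (hcf.comp (continuous_id.max continuous_const)).abs (by
      simp only [max_self, f0, Complex.log_im]
      exact Complex.abs_arg_lt_pi_div_two_iff.2 (Or.inl (ht t₁ le_rfl))) (fun s hs => by
      have := (hA (max s t₁)).cos_pos.2 (ht _ (le_max_right _ _))
      rw [← cos_abs, hs, cos_pi_div_two] at this
      exact lt_irrefl _ this) t
  simpa [max_eq_left htt] using this

theorem Lf.cmp {v v' : ℝ → ℂ} {θ θ' : ℝ → ℝ} (L : Lf v θ) (L' : Lf v' θ')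
    (P : ∀ t, Pat (v t) (v' t)) {c : ℝ} (hc : cos c = 0) (t : ℝ) :
    (θ t ≤ c ↔ θ' t ≤ c) ∧ (θ t < c ↔ θ' t < c) := by
  obtain ⟨t₁, a1, a2⟩ := (L.2.2.and L'.2.2).exists
  have hd := nopp L.1 L'.1 (t₁ := t₁) (by
    rw [abs_lt] at a1 a2 ⊢; constructor <;> linarith [a1.1, a1.2, a2.1, a2.2])
    (fun s => (P s).cos_ne (L.2.1 s) (L'.2.1 s)) t
  have b1 := (P t).le_lt (L.2.1 t) (L'.2.1 t) hd hc
  have b2 := (P t).symm.le_lt (L'.2.1 t) (L.2.1 t) (by rwa [abs_sub_comm]) hc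
  exact ⟨⟨b1.1, b2.1⟩, ⟨b1.2, b2.2⟩⟩

theorem Lf.eq {v : ℝ → ℂ} {θ θ' : ℝ → ℝ} (L : Lf v θ) (L' : Lf v θ') (t : ℝ) : θ' t = θ t := by
  obtain ⟨t₁, a1, a2⟩ := (L.2.2.and L'.2.2).exists
  exact uniq L.1 L'.1 L.2.1 L'.2.1 (t₁ := t₁) (by
    rw [abs_lt] at a1 a2 ⊢; constructor <;> linarith [a1.1, a1.2, a2.1, a2.2, pi_pos]) t

end Vale.Agent.P097B
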