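import Vale.Agent.P097B.Main
import Vale.Agent.P097.H407.Final

/-! # P097B : invariant graphs are invariant rotational curves; ellipses -/

set_option linter.all false

namespace Vale.Agent.P097B

open Real Set Filter Topology Vale.Agent.P097

variable {h : ℝ → ℝ}

theorem rot_of_graph {f : ℝ → ℝ} (G : InvGraph h f) : ∃ c, RotCurve h c ∧
    ∀ ψ : ℝ, (((ψ : AddCircle (2 * π)), ⟨f ψ, G.2.2.1 ψ⟩) : Phase) ∈ range c := by
  have p0 : 0 < 2 * π := by positivity
  haveI : Fact (0 < 2 * π) := ⟨p0⟩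
  have cq : Continuous fun t : ℝ => (t : AddCircle (1 : ℝ)) := AddCircle.continuous_mk' 1
  have cq2 : Continuous fun t : ℝ => (t : AddCircle (2 * π)) := AddCircle.continuous_mk' _
  let u : ℝ → Phase := fun t => ((2 * π * t : ℝ), ⟨f (2 * π * t), G.2.2.1 _⟩)
  have cu : Continuous u := (cq2.comp (continuous_const.mul continuous_id)).prodMk
    ((G.1.comp (continuous_const.mul continuous_id)).subtype_mk _)
  have pu : Function.Periodic u 1 := fun t => by
    refine Prod.ext ?_ (Subtype.ext ?_)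
    · exact coe_eq.2 ⟨1, by push_cast; ring⟩
    · show f (2 * π * (t + 1)) = f (2 * π * t)
      rw [mul_add, mul_one, G.2.1]
  let c : C(AddCircle (1 : ℝ), Phase) :=
    ⟨pu.lift, (QuotientAddGroup.isQuotientMap_mk _).continuous_iff.2 cu⟩
  have hc : ∀ t : ℝ, c t = u t := fun t => rfl
  have on : ∀ ψ : ℝ, c ((ψ / (2 * π) : ℝ)) = ((ψ : AddCircle (2 * π)), ⟨f ψ, G.2.2.1 ψ⟩) := by
    intro ψ
    rw [hc]
    simp only [u, mul_div_cancel₀ ψ p0.ne']
  refine ⟨c, ⟨fun s t e => ?_, ?_, fun t => ?_⟩, fun ψ => ⟨_, on ψ⟩⟩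
  · obtain ⟨s, rfl⟩ := QuotientAddGroup.mk_surjective s
    obtain ⟨t, rfl⟩ := QuotientAddGroup.mk_surjective t
    obtain ⟨n, hn⟩ := coe_eq.1 (congrArg Prod.fst e)
    refine coe_eq.2 ⟨n, mul_left_cancel₀ p0.ne' ?_⟩
    rw [hn]; ring
  · intro nn
    obtain ⟨y, ⟨H⟩⟩ := nn.comp_right ContinuousMap.fst
    obtain ⟨y, rfl⟩ := QuotientAddGroup.mk_surjective y
    have cov := AddCircle.isCoveringMap_coe (2 * π)
    have H0 : ∀ a, H.symm.toContinuousMap (0, a) =
        ((ContinuousMap.const (AddCircle (1 : ℝ)) y a : ℝ) : AddCircle (2 * π)) :=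
      fun a => H.symm.apply_zero a
    let L := cov.liftHomotopy H.symm.toContinuousMap (ContinuousMap.const _ y) H0
    have hL : ∀ t : ℝ, (L (1, (t : AddCircle (1 : ℝ))) : AddCircle (2 * π)) = (2 * π * t : ℝ) :=
      fun t => (congrFun (cov.liftHomotopy_lifts H.symm.toContinuousMap _ H0) (1, t)).trans
        (H.symm.apply_one (t : AddCircle (1 : ℝ)))
    obtain ⟨n, hn⟩ := coe_eq.1 (hL 0)
    have := cov.eq_of_comp_eq (g₁ := fun t : ℝ => L (1, (t : AddCircle (1 : ℝ))))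
      (g₂ := fun t => 2 * π * t + n * (2 * π))
      (L.continuous.comp (continuous_const.prodMk cq)) (by fun_prop) (funext fun t => by
        show (L (1, (t : AddCircle (1 : ℝ))) : AddCircle (2 * π)) =
          ((2 * π * t + n * (2 * π) : ℝ) : AddCircle (2 * π))
        rw [hL]
        exact (coe_eq.2 ⟨n, rfl⟩).symm) 0 hn
    have e1 := congrFun this (0 + 1)
    have e0 := congrFun this 0
    simp only [AddCircle.coe_add_period] at e1
    rw [e0] at e1
    linarith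
  · obtain ⟨t, rfl⟩ := QuotientAddGroup.mk_surjective t
    obtain ⟨ψ', S⟩ := G.2.2.2 (2 * π * t)
    refine ⟨(ψ' / (2 * π) : ℝ), 2 * π * t, ψ', rfl, ?_, ?_⟩
    · rw [on]
    · rw [on]; exact S

theorem filled_of_collar {η : ℝ} (C : Collar h η) : Filled h η := by
  rintro ⟨x, δ, h0, h1⟩ hδ
  obtain ⟨ψ, rfl⟩ := QuotientAddGroup.mk_surjective x
  obtain ⟨f, G, rfl⟩ := C ψ δ h0 hδ
  obtain ⟨c, R, hc⟩ := rot_of_graph G
  exact ⟨c, R, hc ψ⟩

theorem filled_iff (H : SmoothTable h) :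
    (∃ η : ℝ, 0 < η ∧ Filled h η) ↔ ∃ η : ℝ, 0 < η ∧ Collar h η :=
  ⟨fun ⟨η, a, b⟩ => ⟨min η π, lt_min a pi_pos, collar_of_filled H b⟩,
    fun ⟨η, a, b⟩ => ⟨η, a, filled_of_collar b⟩⟩

theorem filled_ellipse (E : H407.IsEllipse h) : ∃ η : ℝ, 0 < η ∧ Filled h η := by
  obtain ⟨v, hv, rfl⟩ := (H407.isEllipse_iff h).1 E
  obtain ⟨η, β, M, a, -, -, k⟩ := H407.stELLC {v} (singleton_subset_iff.2 hv) isCompact_singleton
  exact ⟨η, a, filled_of_collar (k v rfl).2⟩

theorem smooth_ellipse (E : H407.IsEllipse h) : SmoothTable h := by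
  obtain ⟨v, hv, rfl⟩ := (H407.isEllipse_iff h).1 E
  obtain ⟨η, β, M, -, a, b, k⟩ := H407.stELLC {v} (singleton_subset_iff.2 hv) isCompact_singleton
  exact ⟨FD.StripTab.contDiff a (k v rfl).1, (k v rfl).1.1, FD.StripTab.rad_pos b (k v rfl).1⟩

end Vale.Agent.P097B
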