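import Vale.Agent.P097B.ArcA
import Vale.Agent.P097B.Conv

/-! # P097B : from the billiard in a convex domain to its support function -/

set_option linter.all false

namespace Vale.Agent.P097B.Arc

open Real Set Filter Topology Vale.Agent.P097
open scoped ContDiff ComplexConjugate

variable {Ω : Set ℂ} {L : ℝ} {Γ : ℝ → ℂ}

theorem circ {f : ℝ → ℝ} {p q : ℝ} (hf : Continuous f) (hp : ∀ x, f (x + p) = f x + q) :
    ∃ F : C(AddCircle p, AddCircle q), ∀ x : ℝ, F x = f x := by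
  have pe : Function.Periodic (fun x => (f x : AddCircle q)) p := fun x => by
    simp only [hp, AddCircle.coe_add_period]
  exact ⟨⟨pe.lift, (QuotientAddGroup.isQuotientMap_mk _).continuous_iff.2
    ((AddCircle.continuous_mk' q).comp hf)⟩, fun x => rfl⟩

theorem rot_map {A B : Type} [TopologicalSpace A] [TopologicalSpace B] (F : C(A, B)) (G : C(B, A))
    (gf : ∀ x, G (F x) = x) {c : C(AddCircle (1 : ℝ), A)} (h1 : Function.Injective c)
    (h2 : ¬ c.Nullhomotopic) : Function.Injective (F.comp c) ∧ ¬ (F.comp c).Nullhomotopic := by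
  refine ⟨fun s t e => h1 ?_, fun n => h2 ?_⟩
  · have := congrArg G e
    simpa [gf] using this
  · have := n.comp_right G
    rwa [show G.comp (F.comp c) = c from ContinuousMap.ext fun t => gf _] at this

theorem filled_iff' {h ψ σ : ℝ → ℝ} (per : Function.Periodic Γ L) (cψ : Continuous ψ)
    (cσ : Continuous σ) (a1 : ∀ s, σ (ψ s) = s) (a2 : ∀ θ, ψ (σ θ) = θ)
    (pψ : ∀ s, ψ (s + L) = ψ s + 2 * π) (pσ : ∀ θ, σ (θ + 2 * π) = σ θ + L)
    (tg : ∀ s, deriv Γ s = Complex.I * Complex.exp (ψ s * Complex.I))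
    (bd : ∀ θ, bdry h θ = Γ (σ θ)) : Filled L Γ ↔ ∃ η : ℝ, 0 < η ∧ P097B.Filled h η := by
  obtain ⟨F, hF⟩ := circ cψ pψ
  obtain ⟨G, hG⟩ := circ cσ pσ
  have gf : ∀ x, G (F x) = x := fun x => by
    obtain ⟨x, rfl⟩ := QuotientAddGroup.mk_surjective x
    rw [hF, hG, a1]
  have fg : ∀ x, F (G x) = x := fun x => by
    obtain ⟨x, rfl⟩ := QuotientAddGroup.mk_surjective x
    rw [hG, hF, a2]
  let P : C(Phase L, P097B.Phase) := F.prodMap (ContinuousMap.id _)
  let Q : C(P097B.Phase, Phase L) := G.prodMap (ContinuousMap.id _)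
  have qp : ∀ x, Q (P x) = x := fun x => Prod.ext (gf _) rfl
  have pq : ∀ x, P (Q x) = x := fun x => Prod.ext (fg _) rfl
  have pb : Function.Periodic (bdry h) (2 * π) := fun θ => by rw [bd, bd, pσ, per]
  have ex : ∀ a b : ℝ, Complex.exp (a * Complex.I) * Complex.exp (b * Complex.I) =
      Complex.exp ((a + b : ℝ) * Complex.I) := fun a b => by
    rw [← Complex.exp_add]; push_cast; ring_nf
  have key : ∀ x y, Bounce L Γ x y ↔ P097B.Bounce h (P x) (P y) := by
    rintro ⟨x, δ, d0, d1⟩ ⟨y, δ', e0, e1⟩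
    constructor
    · rintro ⟨s, s', ℓ, rfl, rfl, l0, b1, b2⟩
      simp only [tg] at b1 b2
      rw [mul_assoc, mul_assoc, ex, ← neg_mul, ← Complex.ofReal_neg, ex] at b2
      obtain ⟨n, hn⟩ := Complex.exp_eq_exp_iff_exists_int.1 (mul_left_cancel₀ Complex.I_ne_zero b2)
      have k := congrArg Complex.im hn
      simp at k
      have k' : ψ s + δ + δ' = ψ s' + n * (2 * π) := by linarith
      refine ⟨ψ s, ψ s + δ + δ', (hF s).symm, (coe_eq.2 ⟨n, k'⟩).trans (hF s').symm,
        d0, d1, e0, e1, rfl, ℓ, l0, ?_⟩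
      show bdry h (ψ s + δ + δ') = bdry h (ψ s) + ℓ * (Complex.I * Complex.exp ((ψ s + δ : ℝ) * _))
      rw [k', pb.int_mul n, bd, bd, a1, a1, b1, mul_assoc, ex]
    · rintro ⟨θ, θ', b1, b2, -, -, -, -, b3, ℓ, l0, b4⟩
      refine ⟨σ θ, σ θ', ℓ, ?_, ?_, l0, ?_, ?_⟩
      · rw [← hG, b1]; exact gf x
      · rw [← hG, b2]; exact gf y
      · rw [← bd, ← bd, tg, a2, mul_assoc, ex]
        exact b4
      · rw [tg, tg, a2, a2, mul_assoc, mul_assoc, ex, ← neg_mul, ← Complex.ofReal_neg, ex]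
        have : θ' = θ + δ + δ' := b3
        rw [this]
        congr 4
        ring
  constructor
  · rintro ⟨η, h0, H⟩
    refine ⟨η, h0, fun x hx => ?_⟩
    obtain ⟨c, ⟨r1, r2, r3⟩, t, ht⟩ := H (Q x) hx
    obtain ⟨k1, k2⟩ := rot_map P Q qp r1 r2
    refine ⟨P.comp c, ⟨k1, k2, fun t => ?_⟩, t, ?_⟩
    · obtain ⟨s, hs⟩ := r3 t
      exact ⟨s, (key _ _).1 hs⟩
    · show P (c t) = x
      rw [ht, pq]
  · rintro ⟨η, h0, H⟩
    refine ⟨η, h0, fun x hx => ?_⟩
    obtain ⟨c, ⟨r1, r2, r3⟩, t, ht⟩ := H (P x) hx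
    obtain ⟨k1, k2⟩ := rot_map Q P pq r1 r2
    refine ⟨Q.comp c, ⟨k1, k2, fun t => ?_⟩, t, ?_⟩
    · obtain ⟨s, hs⟩ := r3 t
      refine ⟨s, (key _ _).2 ?_⟩
      show P097B.Bounce h (P (Q (c t))) (P (Q (c s)))
      rwa [pq, pq]
    · show Q (c t) = x
      rw [ht, qp]

theorem bdry_ellipse {a b : ℝ} (ha : 0 < a) (hb : 0 < b) (φ p q θ : ℝ) :
    (((bdry (H407.ellipse a b φ p q) θ - ⟨p, q⟩) * Complex.exp (-(φ * Complex.I))).re / a) ^ 2 +
      (((bdry (H407.ellipse a b φ p q) θ - ⟨p, q⟩) * Complex.exp (-(φ * Complex.I))).im / b) ^ 2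
        = 1 := by
  have cs := cos_sq_add_sin_sq (θ - φ)
  have w0 : 0 < a ^ 2 * cos (θ - φ) ^ 2 + b ^ 2 * sin (θ - φ) ^ 2 := by
    rcases eq_or_ne (cos (θ - φ)) 0 with h | h
    · have : sin (θ - φ) ^ 2 = 1 := by rw [h] at cs; linarith
      rw [h, this]; positivity
    · positivity
  have u : HasDerivAt (fun x : ℝ => x - φ) 1 θ := (hasDerivAt_id θ).sub_const φ
  have d := (((hasDerivAt_cos θ).const_mul p).add ((hasDerivAt_sin θ).const_mul q)).add
    ((((u.cos.pow 2).const_mul (a ^ 2)).add ((u.sin.pow 2).const_mul (b ^ 2))).sqrt w0.ne')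
  have d' : deriv (H407.ellipse a b φ p q) θ = _ := d.deriv
  have r0 := sqrt_pos.2 w0
  have r2 := sq_sqrt w0.le
  have e1 : bdry (H407.ellipse a b φ p q) θ - ⟨p, q⟩ =
      (⟨√(a ^ 2 * cos (θ - φ) ^ 2 + b ^ 2 * sin (θ - φ) ^ 2),
        (b ^ 2 - a ^ 2) * sin (θ - φ) * cos (θ - φ) /
          √(a ^ 2 * cos (θ - φ) ^ 2 + b ^ 2 * sin (θ - φ) ^ 2)⟩ : ℂ) *
        Complex.exp (θ * Complex.I) := by
    have c2 := cos_sq_add_sin_sq θ
    unfold bdry
    rw [d']
    simp only [H407.ellipse, Pi.add_apply, Pi.pow_apply]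
    generalize √(a ^ 2 * cos (θ - φ) ^ 2 + b ^ 2 * sin (θ - φ) ^ 2) = r at r0
    apply Complex.ext
    · simp only [Complex.sub_re, Complex.mul_re, Complex.add_re, Complex.add_im, Complex.mul_im,
        Complex.ofReal_re, Complex.ofReal_im, Complex.I_re, Complex.I_im,
        Complex.exp_ofReal_mul_I_re, Complex.exp_ofReal_mul_I_im]
      field_simp
      push_cast
      linear_combination (2 * r * p) * c2
    · simp only [Complex.sub_im, Complex.mul_re, Complex.add_re, Complex.add_im, Complex.mul_im,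
        Complex.ofReal_re, Complex.ofReal_im, Complex.I_re, Complex.I_im,
        Complex.exp_ofReal_mul_I_re, Complex.exp_ofReal_mul_I_im]
      field_simp
      push_cast
      linear_combination (2 * r * q) * c2
  have e2 : Complex.exp (θ * Complex.I) * Complex.exp (-(φ * Complex.I)) =
      Complex.exp ((θ - φ : ℝ) * Complex.I) := by
    rw [← Complex.exp_add]; push_cast; ring_nf
  rw [e1, mul_assoc, e2]
  simp only [Complex.mul_re, Complex.mul_im, Complex.exp_ofReal_mul_I_re,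
    Complex.exp_ofReal_mul_I_im]
  generalize √(a ^ 2 * cos (θ - φ) ^ 2 + b ^ 2 * sin (θ - φ) ^ 2) = r at r0 r2
  generalize cos (θ - φ) = C at *
  generalize sin (θ - φ) = S at *
  have x1 : r * C - (b ^ 2 - a ^ 2) * S * C / r * S = a ^ 2 * C / r := by
    field_simp
    linear_combination C * r2 + C * a ^ 2 * cs
  have x2 : r * S + (b ^ 2 - a ^ 2) * S * C / r * C = b ^ 2 * S / r := by
    field_simp
    linear_combination S * r2 + S * b ^ 2 * cs
  rw [x1, x2]
  field_simp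
  linarith

theorem eq_of_frontier (op : IsOpen Ω) (bd : Bornology.IsBounded Ω) (ne : Ω.Nonempty) {c : ℂ}
    {Q : ℂ → ℝ} (hQ : ∀ (t : ℝ) w, Q (c + t * (w - c)) = t ^ 2 * Q w) (Q0 : ∀ w, 0 ≤ Q w)
    (fr : ∀ z ∈ frontier Ω, Q z = 1) : Ω = {z | Q z < 1} := by
  have ct : ∀ w, Continuous fun t : ℝ => c + t * (w - c) := fun w => by fun_prop
  have rad : ∀ w (I : Set ℝ), IsPreconnected I → (∀ t ∈ I, t ^ 2 * Q w ≠ 1) →
      (∃ t ∈ I, c + t * (w - c) ∈ Ω) → ∀ t ∈ I, c + t * (w - c) ∈ Ω := by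
    rintro w I h1 h2 ⟨t₀, h3, h4⟩ t ht
    refine (h1.image _ (ct w).continuousOn).subset_of_closure_inter_subset op
      ⟨_, ⟨t₀, h3, rfl⟩, h4⟩ ?_ ⟨t, ht, rfl⟩
    rintro _ ⟨k1, s, hs, rfl⟩
    by_contra k2
    exact h2 s hs (by rw [← hQ]; exact fr _ (by rw [op.frontier_eq]; exact ⟨k1, k2⟩))
  have sub : ∀ z ∈ Ω, Q z < 1 := by
    intro z hz
    by_contra hc
    push Not at hc
    have e : ∀ᶠ t : ℝ in 𝓝 1, c + t * (z - c) ∈ Ω :=
      (ct z).continuousAt.eventually (op.mem_nhds (by simpa using hz))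
    obtain ⟨t₀, k1, k2⟩ := ((frequently_gt_nhds (1 : ℝ)).and_eventually e).exists
    have all := rad z (Ioi 1) isPreconnected_Ioi (fun t ht => by
      have : 1 < t := ht
      nlinarith) ⟨t₀, k1, k2⟩
    have zc : z - c ≠ 0 := fun h => by
      have a := hQ 0 z
      have b := hQ 1 z
      rw [h] at a b
      simp at a b
      linarith
    obtain ⟨R, hR⟩ := bd.exists_norm_le
    have n0 := norm_pos_iff.2 zc
    have R0 : 0 ≤ R := (norm_nonneg _).trans (hR z hz)
    have t1 : 1 < (R + ‖c‖) / ‖z - c‖ + 2 := by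
      have : 0 ≤ (R + ‖c‖) / ‖z - c‖ := by positivity
      linarith
    have a := hR _ (all _ t1)
    have b := norm_sub_le (c + (((R + ‖c‖) / ‖z - c‖ + 2 : ℝ) : ℂ) * (z - c)) c
    rw [add_sub_cancel_left, norm_mul, Complex.norm_real, Real.norm_of_nonneg (by linarith),
      add_mul, div_mul_cancel₀ _ n0.ne'] at b
    linarith
  have seg : ∀ w, Q w < 1 → ∀ t ∈ Icc (0 : ℝ) 1, t ^ 2 * Q w ≠ 1 := fun w h t ht => by
    have : t ^ 2 ≤ 1 := pow_le_one₀ ht.1 ht.2
    nlinarith [Q0 w]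
  obtain ⟨w, hw⟩ := ne
  have c0 := rad w _ isPreconnected_Icc (seg w (sub w hw)) ⟨1, by simp, by simpa using hw⟩ 0
    (by simp)
  refine Subset.antisymm sub fun z hz => ?_
  simpa using rad z _ isPreconnected_Icc (seg z hz) ⟨0, by simp, by simpa using c0⟩ 1 (by simp)

/-- the dictionary between a table and its support function -/
theorem bridge (T : Table Ω L Γ) : ∃ h : ℝ → ℝ, SmoothTable h ∧ range (bdry h) = frontier Ω ∧
    (Filled L Γ ↔ ∃ η : ℝ, 0 < η ∧ Collar h η) ∧ (H407.IsEllipse h → IsEllipse Ω) := by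
  obtain ⟨h, ψ, σ, H, cψ, cσ, a1, a2, pψ, pσ, tg, bd⟩ := exists_support T
  obtain ⟨op, bo, -, -, -, per, -, fr, -, -⟩ := T
  have rg : range (bdry h) = frontier Ω := by
    rw [← fr]
    ext z
    constructor
    · rintro ⟨θ, rfl⟩; exact ⟨_, (bd θ).symm⟩
    · rintro ⟨s, rfl⟩; exact ⟨ψ s, by rw [bd, a1]⟩
  refine ⟨h, H, rg, (filled_iff' per cψ cσ a1 a2 pψ pσ tg bd).trans (filled_iff H), ?_⟩
  rintro ⟨a, b, φ, p, q, ha, hb, rfl⟩
  refine ⟨⟨p, q⟩, a, b, φ, ha, hb, eq_of_frontier (c := ⟨p, q⟩) op bo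
    (closure_nonempty_iff.1 ⟨_, frontier_subset_closure (rg ▸ mem_range_self (0 : ℝ))⟩) (fun t w => ?_)
    (fun w => by positivity) (fun z hz => ?_)⟩
  · rw [add_sub_cancel_left, mul_assoc, Complex.re_ofReal_mul, Complex.im_ofReal_mul]
    ring
  · obtain ⟨θ, rfl⟩ : z ∈ range _ := rg ▸ hz
    exact bdry_ellipse ha hb φ p q θ

/-- the problem reduces to support functions with a collar of invariant graphs -/
theorem reduce (H : ∀ h : ℝ → ℝ, SmoothTable h → (∃ η : ℝ, 0 < η ∧ Collar h η) → H407.IsEllipse h)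
    (T : Table Ω L Γ) (F : Filled L Γ) : IsEllipse Ω := by
  obtain ⟨h, a, -, b, c⟩ := bridge T
  exact c (H h a (b.1 F))

/-- the unit disc satisfies all the hypotheses -/
theorem disc : Table (Metric.ball 0 1) (2 * π) (fun s => Complex.exp (s * Complex.I)) ∧
    Filled (2 * π) (fun s => Complex.exp (s * Complex.I)) := by
  have d : ∀ s : ℝ, HasDerivAt (fun s : ℝ => Complex.exp (s * Complex.I))
      (Complex.I * Complex.exp (s * Complex.I)) s := fun s =>
    (((hasDerivAt_id s).ofReal_comp.mul_const Complex.I).cexp).congr_deriv (by simp [mul_comm])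
  have d1 : deriv (fun s : ℝ => Complex.exp (s * Complex.I)) =
      fun s : ℝ => Complex.I * Complex.exp (s * Complex.I) := funext fun s => (d s).deriv
  have pe : Function.Periodic (fun s : ℝ => Complex.exp (s * Complex.I)) (2 * π) := fun s => by
    simp only [Complex.ofReal_add, add_mul, Complex.exp_add]
    push_cast
    rw [Complex.exp_two_pi_mul_I, mul_one]
  refine ⟨⟨Metric.isOpen_ball, Metric.isBounded_ball, convex_ball _ _, by positivity,
    (Complex.ofRealCLM.contDiff.mul contDiff_const).cexp, pe, fun s hs t ht e => ?_, ?_,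
    fun s => by simp [d1], fun s => ?_⟩, ?_⟩
  · obtain ⟨n, hn⟩ := Complex.exp_eq_exp_iff_exists_int.1 e
    have k := congrArg Complex.im hn
    simp at k
    have a : (-1 : ℝ) < n := by nlinarith [hs.1, ht.2, pi_pos]
    have b : (n : ℝ) < 1 := by nlinarith [hs.2, ht.1, pi_pos]
    have a' : -1 < n := by exact_mod_cast a
    have b' : n < 1 := by exact_mod_cast b
    have : n = 0 := by omega
    simpa [this] using k
  · rw [frontier_ball _ one_ne_zero]
    exact Complex.range_exp_mul_I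
  · rw [d1, ((d s).const_mul Complex.I).deriv]
    have : conj (Complex.I * Complex.exp (s * Complex.I)) *
        (Complex.I * (Complex.I * Complex.exp (s * Complex.I))) = Complex.I := by
      have := Complex.conj_mul' (Complex.I * Complex.exp (s * Complex.I))
      rw [norm_mul, Complex.norm_I, Complex.norm_exp_ofReal_mul_I] at this
      push_cast at this
      linear_combination Complex.I * this
    rw [this]; simp
  · refine (filled_iff' (h := fun _ => 1) (ψ := id) (σ := id) pe continuous_id continuous_id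
      (fun _ => rfl) (fun _ => rfl) (fun _ => rfl) (fun _ => rfl) (fun s => congrFun d1 s)
      (fun θ => by simp [bdry])).2 (filled_ellipse ⟨1, 1, 0, 0, 0, one_pos, one_pos, ?_⟩)
    funext x
    simp [H407.ellipse]

end Vale.Agent.P097B.Arc
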