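import Vale.Agent.P097B.Ang

/-! # P097B : the angle under which a periodic curve is seen from a point -/

set_option linter.all false

namespace Vale.Agent.P097B

open Real Set Filter Topology

theorem per_bd {f : ℝ → ℝ} {p : ℝ} (hc : Continuous f) (hp : ∀ t, f (t + 1) = f t + p) :
    ∃ B, ∀ t, |f t - p * t| ≤ B := by
  have h1 : Function.Periodic (fun t => f t - p * t) 1 := fun t => by
    simp only [hp]; ring
  obtain ⟨B, hB⟩ := (h1.isBounded_of_continuous one_ne_zero (by fun_prop)).exists_norm_le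
  exact ⟨B, fun t => hB _ ⟨t, rfl⟩⟩

theorem per_top {f : ℝ → ℝ} {p : ℝ} (hc : Continuous f) (hp : ∀ t, f (t + 1) = f t + p)
    (h0 : 0 < p) : Tendsto f atTop atTop := by
  obtain ⟨B, hB⟩ := per_bd hc hp
  refine tendsto_atTop_mono (f := fun t => p * t + -B) (fun t => ?_)
    (tendsto_atTop_add_const_right _ _ (tendsto_id.const_mul_atTop h0))
  linarith [(abs_le.1 (hB t)).1]

theorem per_bot {f : ℝ → ℝ} {p : ℝ} (hc : Continuous f) (hp : ∀ t, f (t + 1) = f t + p)
    (h0 : 0 < p) : Tendsto f atBot atBot := by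
  obtain ⟨B, hB⟩ := per_bd hc hp
  refine tendsto_atBot_mono (f := fun t => p * t + B) (fun t => ?_)
    (tendsto_atBot_add_const_right _ _ (tendsto_id.const_mul_atBot h0))
  linarith [(abs_le.1 (hB t)).2]

/-- a continuous curve which is translated by `p` to the right in one period -/
structure Cv (γ : ℝ → ℂ) (p : ℝ) : Prop where
  cont : Continuous γ
  pos : 0 < p
  per : ∀ t, γ (t + 1) = γ t + p

variable {γ : ℝ → ℂ} {p : ℝ}

theorem Cv.cre (C : Cv γ p) : Continuous fun t => (γ t).re := Complex.continuous_re.comp C.cont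
theorem Cv.cim (C : Cv γ p) : Continuous fun t => (γ t).im := Complex.continuous_im.comp C.cont

theorem Cv.top (C : Cv γ p) : Tendsto (fun t => (γ t).re) atTop atTop :=
  per_top C.cre (fun t => by simp [C.per]) C.pos

theorem Cv.bot (C : Cv γ p) : Tendsto (fun t => (γ t).re) atBot atBot :=
  per_bot C.cre (fun t => by simp [C.per]) C.pos

theorem Cv.per_int (C : Cv γ p) (n : ℤ) (t : ℝ) : γ (t + n) = γ t + n * p := by
  have h1 : Function.Periodic (fun t : ℝ => γ t - t * p) 1 := fun t => by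
    simp only [C.per]; push_cast; ring
  have := h1.int_mul n t
  simp only [mul_one] at this
  push_cast at this
  linear_combination this

theorem Cv.proper (C : Cv γ p) : IsProperMap γ := by
  refine isProperMap_iff_tendsto_cocompact.2 ⟨C.cont, ?_⟩
  rw [← Metric.cobounded_eq_cocompact (α := ℂ), ← tendsto_norm_atTop_iff_cobounded,
    cocompact_eq_atBot_atTop, tendsto_sup]
  constructor
  · exact tendsto_atTop_mono (fun t => Complex.abs_re_le_norm _)
      (tendsto_abs_atBot_atTop.comp C.bot)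
  · exact tendsto_atTop_mono (fun t => Complex.abs_re_le_norm _)
      (tendsto_abs_atTop_atTop.comp C.top)

theorem Cv.closed (C : Cv γ p) : IsClosed (range γ) := C.proper.isClosedMap.isClosed_range

theorem Cv.minmax (C : Cv γ p) :
    (∃ a, ∀ t, (γ a).im ≤ (γ t).im) ∧ ∃ b, ∀ t, (γ t).im ≤ (γ b).im := by
  have h1 : Function.Periodic (fun t => (γ t).im) 1 := fun t => by simp [C.per]
  have h2 := h1.compact_of_continuous one_ne_zero C.cim
  obtain ⟨_, ⟨a, rfl⟩, ha⟩ := h2.exists_isLeast (range_nonempty _)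
  obtain ⟨_, ⟨b, rfl⟩, hb⟩ := h2.exists_isGreatest (range_nonempty _)
  exact ⟨⟨a, fun t => ha ⟨t, rfl⟩⟩, b, fun t => hb ⟨t, rfl⟩⟩

theorem Cv.far (C : Cv γ p) (w₀ : ℂ) : ∃ T, ∀ᶠ w in 𝓝 w₀,
    (∀ t, T ≤ t → 0 < (γ t - w).re) ∧ ∀ t, t ≤ -T → (γ t - w).re < 0 := by
  obtain ⟨T₁, h1⟩ := eventually_atTop.1 (C.top.eventually_gt_atTop (w₀.re + 1))
  obtain ⟨T₂, h2⟩ := eventually_atBot.1 (C.bot.eventually_lt_atBot (w₀.re - 1))
  refine ⟨max T₁ (-T₂), ?_⟩
  have e1 : ∀ᶠ w in 𝓝 w₀, w.re < w₀.re + 1 :=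
    Complex.continuous_re.continuousAt.eventually_lt continuousAt_const (by simp)
  have e2 : ∀ᶠ w in 𝓝 w₀, w₀.re - 1 < w.re :=
    continuousAt_const.eventually_lt Complex.continuous_re.continuousAt (by simp)
  filter_upwards [e1, e2] with w a1 a2
  refine ⟨fun t ht => ?_, fun t ht => ?_⟩
  · have := h1 t ((le_max_left _ _).trans ht)
    simp only [Complex.sub_re]; linarith
  · have := h2 t (by linarith [le_max_right T₁ (-T₂)])
    simp only [Complex.sub_re]; linarith

open Classical in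
/-- the argument of `γ t - w` -/
noncomputable def Th (γ : ℝ → ℂ) (w : ℂ) : ℝ → ℝ :=
  if H : ∃ θ, Lf (fun t => γ t - w) θ then H.choose else 0

theorem Cv.lf (C : Cv γ p) {w : ℂ} (hw : w ∉ range γ) : Lf (fun t => γ t - w) (Th γ w) := by
  have H : ∃ θ, Lf (fun t => γ t - w) θ := by
    obtain ⟨T, hT⟩ := C.far w
    exact exists_lf (C.cont.sub continuous_const)
      (fun t h => hw ⟨t, sub_eq_zero.1 h⟩) (eventually_atTop.2 ⟨T, hT.self_of_nhds.1⟩)
  unfold Th
  rw [dif_pos H]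
  exact H.choose_spec

theorem Cv.shift_mem (C : Cv γ p) (n : ℤ) {w : ℂ} : w + n * p ∈ range γ ↔ w ∈ range γ := by
  constructor
  · rintro ⟨t, ht⟩
    refine ⟨t + (-n : ℤ), ?_⟩
    rw [C.per_int, ht]; push_cast; ring
  · rintro ⟨t, ht⟩
    exact ⟨t + n, by rw [C.per_int, ht]⟩

theorem Cv.shift (C : Cv γ p) {w : ℂ} (hw : w ∉ range γ) (n : ℤ) (t : ℝ) :
    Th γ (w + n * p) (t + n) = Th γ w t := by
  have L := C.lf (w := w + n * p) (fun h => hw ((C.shift_mem n).1 h))
  refine (C.lf hw).eq (θ' := fun t => Th γ (w + n * p) (t + n))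
    ⟨L.1.comp (continuous_id.add continuous_const), fun s => ?_,
      (tendsto_atTop_add_const_right _ _ tendsto_id).eventually L.2.2⟩ t
  have := L.2.1 (s + n)
  simp only [C.per_int] at this
  simpa using this

theorem Cv.loc (C : Cv γ p) {w₀ : ℂ} (hw : w₀ ∉ range γ) : ∀ᶠ w in 𝓝 w₀, w ∉ range γ ∧
    ∀ t, 0 < ((γ t - w) / (γ t - w₀)).re ∧
      Th γ w t = Th γ w₀ t + Complex.arg ((γ t - w) / (γ t - w₀)) := by
  obtain ⟨ε, e0, he⟩ := Metric.isOpen_iff.1 C.closed.isOpen_compl w₀ hw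
  filter_upwards [Metric.ball_mem_nhds w₀ e0] with w h1
  have h2 : w ∉ range γ := he h1
  have n0 : ∀ t, γ t - w₀ ≠ 0 := fun t h => hw ⟨t, sub_eq_zero.1 h⟩
  have n1 : ∀ t, γ t - w ≠ 0 := fun t h => h2 ⟨t, sub_eq_zero.1 h⟩
  have hq : ∀ t, 0 < ((γ t - w) / (γ t - w₀)).re := by
    intro t
    have a1 : ε ≤ ‖γ t - w₀‖ := by
      by_contra hc
      push Not at hc
      exact he (show γ t ∈ Metric.ball w₀ ε by rwa [mem_ball_iff_norm]) ⟨t, rfl⟩
    have a2 : ‖w - w₀‖ < ε := by rwa [mem_ball_iff_norm] at h1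
    have a3 : (γ t - w) / (γ t - w₀) = 1 - (w - w₀) / (γ t - w₀) := by
      have := n0 t
      field_simp; ring
    have a4 : ‖(w - w₀) / (γ t - w₀)‖ < 1 := by
      rw [norm_div, div_lt_one (norm_pos_iff.2 (n0 t))]; linarith
    have a5 := (abs_le.1 (Complex.abs_re_le_norm ((w - w₀) / (γ t - w₀)))).2
    rw [a3, Complex.sub_re, Complex.one_re]
    linarith
  refine ⟨h2, fun t => ⟨hq t, ?_⟩⟩
  have L := C.lf h2
  have L0 := C.lf hw
  have hc : Continuous fun t => Complex.arg ((γ t - w) / (γ t - w₀)) := by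
    refine continuous_iff_continuousAt.2 fun s => ?_
    refine (Complex.continuousAt_arg (Or.inl (hq s))).comp (f := fun t => (γ t - w) / (γ t - w₀)) ?_
    exact ((C.cont.sub continuous_const).continuousAt).div
      ((C.cont.sub continuous_const).continuousAt) (n0 s)
  obtain ⟨t₁, a1, a2⟩ := (L.2.2.and L0.2.2).exists
  have a3 := Complex.abs_arg_lt_pi_div_two_iff.2 (Or.inl (hq t₁))
  exact uniq (v := fun t => γ t - w) (L0.1.add hc) L.1 (fun s => (L0.2.1 s).add_arg (n1 s)) L.2.1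
    (t₁ := t₁) (by
      rw [abs_lt] at a1 a2 a3 ⊢
      simp only [Pi.add_apply]
      constructor <;> linarith [a1.1, a1.2, a2.1, a2.2, a3.1, a3.2, pi_pos]) t

theorem Cv.cont2 (C : Cv γ p) {w₀ : ℂ} (hw : w₀ ∉ range γ) (t₀ : ℝ) :
    ContinuousAt (fun q : ℂ × ℝ => Th γ q.1 q.2) (w₀, t₀) := by
  have n0 : γ t₀ - w₀ ≠ 0 := fun h => hw ⟨t₀, sub_eq_zero.1 h⟩
  have h1 : ContinuousAt (fun q : ℂ × ℝ =>
      Th γ w₀ q.2 + Complex.arg ((γ q.2 - q.1) / (γ q.2 - w₀))) (w₀, t₀) := by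
    refine ((C.lf hw).1.comp continuous_snd).continuousAt.add ?_
    refine ContinuousAt.comp (f := fun q : ℂ × ℝ => (γ q.2 - q.1) / (γ q.2 - w₀))
      (g := Complex.arg) (Complex.continuousAt_arg ?_) ?_
    · left; simp [div_self n0]
    · exact (((C.cont.comp continuous_snd).sub continuous_fst).continuousAt).div
        (((C.cont.comp continuous_snd).sub continuous_const).continuousAt) n0
  refine h1.congr ?_
  filter_upwards [(continuousAt_fst (p := (w₀, t₀))).eventually (C.loc hw)] with q hq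
  exact (hq.2 q.2).2.symm

theorem gt_of_cos_neg {x : ℝ} (h : cos x < 0) (h1 : -(π / 2) < x) : π / 2 < x := by
  by_contra hc
  push Not at hc
  have := cos_nonneg_of_mem_Icc (x := x) ⟨h1.le, hc⟩
  linarith

theorem lt_of_cos_neg {x : ℝ} (h : cos x < 0) (h1 : x < π / 2) : x < -(π / 2) := by
  have := gt_of_cos_neg (x := -x) (by rwa [cos_neg]) (by linarith)
  linarith

/-- the curve separates the points below it from the points above it -/
theorem Cv.sep (C : Cv γ p) {S : Set ℂ} (hS : IsPreconnected S) (hd : ∀ w ∈ S, w ∉ range γ)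
    {a b : ℂ} (ha : a ∈ S) (hb : b ∈ S) (h1 : ∀ t, a.im ≤ (γ t).im) (h2 : ∀ t, (γ t).im ≤ b.im) :
    False := by
  have hp := pi_pos
  have cneg : ∀ w, w ∉ range γ → ∀ᶠ t in atBot, cos (Th γ w t) < 0 := by
    intro w hw
    obtain ⟨T, hT⟩ := C.far w
    filter_upwards [eventually_le_atBot (-T)] with t ht
    exact ((C.lf hw).2.1 t).cos_neg.2 (hT.self_of_nhds.2 t ht)
  have near : ∀ w₀, w₀ ∉ range γ → ∀ᶠ w in 𝓝 w₀, w ∉ range γ ∧
      ∀ t, |Th γ w t - Th γ w₀ t| < π / 2 := by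
    intro w₀ hw
    filter_upwards [C.loc hw] with w h
    refine ⟨h.1, fun t => ?_⟩
    rw [(h.2 t).2, add_sub_cancel_left]
    exact Complex.abs_arg_lt_pi_div_two_iff.2 (Or.inl (h.2 t).1)
  let A : Set ℂ := {w | w ∉ range γ ∧ ∀ᶠ t in atBot, 0 < Th γ w t}
  let B : Set ℂ := {w | w ∉ range γ ∧ ∃ᶠ t in atBot, Th γ w t ≤ 0}
  have oA : IsOpen A := by
    refine isOpen_iff_mem_nhds.2 fun w₀ h => ?_
    filter_upwards [near w₀ h.1] with w hw
    refine ⟨hw.1, ?_⟩
    filter_upwards [h.2, cneg w₀ h.1] with t a1 a2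
    have := gt_of_cos_neg a2 (by linarith)
    linarith [(abs_lt.1 (hw.2 t)).1]
  have oB : IsOpen B := by
    refine isOpen_iff_mem_nhds.2 fun w₀ h => ?_
    filter_upwards [near w₀ h.1] with w hw
    refine ⟨hw.1, (h.2.and_eventually (cneg w₀ h.1)).mono fun t a => ?_⟩
    have := lt_of_cos_neg a.2 (by linarith [a.1])
    linarith [(abs_lt.1 (hw.2 t)).2]
  have aA : a ∈ A := by
    have L := C.lf (hd a ha)
    obtain ⟨t₁, k⟩ := L.2.2.exists
    have := stay' L.1 (c := -(π / 2)) (t₁ := t₁) (abs_lt.1 k).1 (fun t ht => by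
      have := (L.2.1 t).sin_neg.1 (by rw [ht]; simp)
      simp only [Complex.sub_im] at this
      linarith [h1 t])
    refine ⟨hd a ha, ?_⟩
    filter_upwards [cneg a (hd a ha)] with t a2
    linarith [gt_of_cos_neg a2 (this t)]
  have bB : b ∈ B := by
    have L := C.lf (hd b hb)
    obtain ⟨t₁, k⟩ := L.2.2.exists
    have := stay L.1 (c := π / 2) (t₁ := t₁) (abs_lt.1 k).2 (fun t ht => by
      have := (L.2.1 t).sin_pos.1 (by rw [ht]; simp)
      simp only [Complex.sub_im] at this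
      linarith [h2 t])
    refine ⟨hd b hb, Eventually.frequently ?_⟩
    filter_upwards [cneg b (hd b hb)] with t a2
    linarith [lt_of_cos_neg a2 (this t)]
  obtain ⟨w, -, wA, wB⟩ := hS A B oA oB (fun w hw => by
    by_cases h : ∀ᶠ t in atBot, 0 < Th γ w t
    · exact Or.inl ⟨hd w hw, h⟩
    · exact Or.inr ⟨hd w hw, (not_eventually.1 h).mono fun t k => not_lt.1 k⟩) ⟨a, ha, aA⟩ ⟨b, hb, bB⟩
  obtain ⟨t, k1, k2⟩ := (wB.2.and_eventually wA.2).exists
  linarith

/-- a simple closed curve goes once around the annulus -/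
theorem Cv.once {q : ℝ} {k : ℤ} (C : Cv γ (k * q)) (hq : 0 < q)
    (hs : ∀ s t, γ s = γ t + q → ∃ n : ℤ, s = t + n) : k = 1 := by
  have k0 : 0 < k := by
    have := C.pos
    have : (0 : ℝ) < k := by
      by_contra h; push Not at h; nlinarith
    exact_mod_cast this
  by_contra hk
  obtain ⟨⟨a, ha⟩, b, hb⟩ := C.minmax
  refine C.sep (S := range fun t => γ t + q) (isPreconnected_range (C.cont.add continuous_const))
    ?_ ⟨a, rfl⟩ ⟨b, rfl⟩ (by simpa using ha) (by simpa using hb)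
  rintro _ ⟨t, rfl⟩ ⟨s, h⟩
  obtain ⟨n, rfl⟩ := hs s t h
  rw [C.per_int] at h
  have h1 : (n : ℝ) * (k * q) = q := by
    have := congrArg Complex.re h
    simpa using this
  have h2 : ((n * k : ℤ) : ℝ) = 1 := by
    push_cast
    have : ((n : ℝ) * k - 1) * q = 0 := by linarith
    rcases mul_eq_zero.1 this with h | h
    · linarith
    · linarith
  have h3 : n * k = 1 := by exact_mod_cast h2
  exact hk (Int.eq_one_of_mul_eq_one_left k0.le h3)

end Vale.Agent.P097B
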