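import Vale.Agent.P097B.ArcD
import Vale.Agent.P097B.Cv
import Vale.Agent.P097.Defs
import Vale.Agent.P097.Reg.STab

/-! # P097B : the normal angle and the support function of a convex table -/

set_option linter.all false

namespace Vale.Agent.P097B.Arc

open Real Set Filter Topology Vale.Agent.P097
open scoped ContDiff ComplexConjugate

variable {Ω : Set ℂ} {L : ℝ} {Γ : ℝ → ℂ}

theorem exists_angle (T : Table Ω L Γ) : ∃ (ψ κ : ℝ → ℝ) (k : ℤ), ContDiff ℝ ∞ ψ ∧
    (∀ s, HasDerivAt ψ (κ s) s) ∧ (∀ s, 0 < κ s) ∧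
    (∀ s, deriv Γ s = Complex.I * Complex.exp (ψ s * Complex.I)) ∧
    ∀ s, ψ (s + L) = ψ s + k * (2 * π) := by
  obtain ⟨-, -, -, -, sm, per, -, -, un, cu⟩ := T
  have s1 : ContDiff ℝ ∞ (deriv Γ) := (contDiff_infty_iff_deriv.1 sm).2
  have s2 : ContDiff ℝ ∞ (deriv (deriv Γ)) := (contDiff_infty_iff_deriv.1 s1).2
  have d1 : ∀ s, HasDerivAt (deriv Γ) (deriv (deriv Γ) s) s := fun s =>
    ((contDiff_infty_iff_deriv.1 s1).1 s).hasDerivAt
  let κ : ℝ → ℝ := fun s => (conj (deriv Γ s) * deriv (deriv Γ) s).im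
  have sκ : ContDiff ℝ ∞ κ := Complex.imCLM.contDiff.comp
    ((Complex.conjCLE.contDiff.comp s1).mul s2)
  have cκ := sκ.continuous
  let ψ₀ := Complex.arg (-Complex.I * deriv Γ 0)
  let ψ : ℝ → ℝ := fun s => ψ₀ + ∫ t in (0 : ℝ)..s, κ t
  have dψ : ∀ s, HasDerivAt ψ (κ s) s := fun s =>
    (intervalIntegral.integral_hasDerivAt_right (cκ.intervalIntegrable _ _)
      (cκ.stronglyMeasurableAtFilter _ _) cκ.continuousAt).const_add _
  have eψ : deriv ψ = κ := funext fun s => (dψ s).deriv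
  have sψ : ContDiff ℝ ∞ ψ :=
    contDiff_infty_iff_deriv.2 ⟨fun s => (dψ s).differentiableAt, by rw [eψ]; exact sκ⟩
  have nn : ∀ s, conj (deriv Γ s) * deriv Γ s = 1 := fun s => by
    rw [Complex.conj_mul', un]; simp
  have acc : ∀ s, deriv (deriv Γ) s = Complex.I * κ s * deriv Γ s := by
    intro s
    have a1 : HasDerivAt (fun s => conj (deriv Γ s) * deriv Γ s)
        (conj (deriv (deriv Γ) s) * deriv Γ s + conj (deriv Γ s) * deriv (deriv Γ) s) s :=
      (Complex.conjCLE.toContinuousLinearMap.hasFDerivAt.comp_hasDerivAt s (d1 s)).mul (d1 s)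
    have a2 : (fun s => conj (deriv Γ s) * deriv Γ s) = fun _ => 1 := funext nn
    rw [a2] at a1
    have a3 := congrArg Complex.re (a1.unique (hasDerivAt_const s (1 : ℂ)))
    have a4 : conj (deriv Γ s) * deriv (deriv Γ) s = Complex.I * κ s := by
      apply Complex.ext
      · simp at a3 ⊢; linarith
      · simp [κ]
    rw [← a4]
    linear_combination (-(deriv (deriv Γ) s)) * nn s
  have dw : ∀ s, HasDerivAt (fun s => deriv Γ s * Complex.exp (-(ψ s * Complex.I))) 0 s := by
    intro s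
    have a := (d1 s).mul (((dψ s).ofReal_comp.mul_const Complex.I).neg.cexp)
    refine a.congr_deriv ?_
    rw [acc s]
    simp only [Pi.neg_apply]
    ring
  have w0 : deriv Γ 0 = Complex.I * Complex.exp (ψ 0 * Complex.I) := by
    have a := Complex.norm_mul_exp_arg_mul_I (-Complex.I * deriv Γ 0)
    have b : ψ 0 = ψ₀ := by simp [ψ]
    rw [norm_mul, un] at a
    simp only [norm_neg, Complex.norm_I, mul_one, Complex.ofReal_one, one_mul] at a
    rw [b, a]
    linear_combination (deriv Γ 0) * Complex.I_mul_I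
  have tg : ∀ s, deriv Γ s = Complex.I * Complex.exp (ψ s * Complex.I) := by
    intro s
    have a := is_const_of_deriv_eq_zero (fun s => (dw s).differentiableAt) (fun s => (dw s).deriv) s 0
    have e : ∀ x : ℂ, Complex.exp (-x) * Complex.exp x = 1 := fun x => by
      rw [← Complex.exp_add]; simp
    rw [w0] at a
    linear_combination (Complex.exp (ψ s * Complex.I)) * a - deriv Γ s * e (ψ s * Complex.I) +
      Complex.I * Complex.exp (ψ s * Complex.I) * e (ψ 0 * Complex.I)
  have pd : ∀ f : ℝ → ℂ, Function.Periodic f L → Function.Periodic (deriv f) L := by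
    intro f hf s
    rw [← deriv_comp_add_const]
    congr 1
    exact funext hf
  have p1 := pd _ per
  have p2 := pd _ p1
  have c1 : ∀ s, ψ (s + L) - ψ s = ψ (0 + L) - ψ 0 := by
    have d : ∀ s, HasDerivAt (fun s => ψ (s + L) - ψ s) 0 s := fun s => by
      refine (((dψ (s + L)).comp_add_const s L).sub (dψ s)).congr_deriv ?_
      simp only [κ, p1 s, p2 s, sub_self]
    exact fun s => is_const_of_deriv_eq_zero (fun s => (d s).differentiableAt)
      (fun s => (d s).deriv) s 0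
  have a := p1 0
  rw [tg, tg] at a
  obtain ⟨k, hk⟩ := Complex.exp_eq_exp_iff_exists_int.1 (mul_left_cancel₀ Complex.I_ne_zero a)
  have b := congrArg Complex.im hk
  simp at b
  exact ⟨ψ, κ, k, sψ, dψ, cu, tg, fun s => by have := c1 s; rw [zero_add, b] at this; linarith⟩

theorem exists_angle' (T : Table Ω L Γ) : ∃ (ψ κ : ℝ → ℝ), ContDiff ℝ ∞ ψ ∧
    (∀ s, HasDerivAt ψ (κ s) s) ∧ (∀ s, 0 < κ s) ∧
    (∀ s, deriv Γ s = Complex.I * Complex.exp (ψ s * Complex.I)) ∧
    (∀ s, ψ (s + L) = ψ s + 2 * π) ∧ StrictMono ψ ∧ Function.Surjective ψ := by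
  obtain ⟨ψ, κ, k, sψ, dψ, k0, tg, pψ⟩ := exists_angle T
  obtain ⟨op, -, cv, L0, sm, per, inj, fr, -, -⟩ := T
  have hp := pi_pos
  have mo : StrictMono ψ := strictMono_of_deriv_pos fun s => by rw [(dψ s).deriv]; exact k0 s
  have kp : 0 < (k : ℝ) * (2 * π) := by
    have := mo (show 0 < 0 + L by linarith)
    rw [pψ] at this
    linarith
  have su : Function.Surjective ψ := by
    have c : Continuous fun t => ψ (L * t) := sψ.continuous.comp (continuous_const.mul continuous_id)
    have p : ∀ t, ψ (L * (t + 1)) = ψ (L * t) + k * (2 * π) := fun t => by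
      rw [mul_add, mul_one, pψ]
    exact Function.Surjective.of_comp (g := fun t => L * t)
      (c.surjective (per_top c p kp) (per_bot c p kp))
  have dΓ : ∀ s, HasDerivAt Γ (Complex.I * Complex.exp (ψ s * Complex.I)) s := fun s => by
    rw [← tg]; exact ((contDiff_infty_iff_deriv.1 sm).1 s).hasDerivAt
  have dX : ∀ s, HasDerivAt (fun s => (Γ s).re) (-sin (ψ s)) s := fun s => by
    exact (Complex.reCLM.hasFDerivAt.comp_hasDerivAt s (dΓ s)).congr_deriv
      (by simp [Complex.exp_ofReal_mul_I_im])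
  have dY : ∀ s, HasDerivAt (fun s => (Γ s).im) (cos (ψ s)) s := fun s => by
    exact (Complex.imCLM.hasFDerivAt.comp_hasDerivAt s (dΓ s)).congr_deriv
      (by simp [Complex.exp_ofReal_mul_I_re])
  have sup : ∀ s t, ((Γ t).re - (Γ s).re) * cos (ψ s) + ((Γ t).im - (Γ s).im) * sin (ψ s) ≤ 0 := by
    intro s
    have m : Γ s ∈ frontier Ω := fr ▸ ⟨s, rfl⟩
    have nm : Γ s ∉ Ω := fun h => by
      rw [op.frontier_eq] at m; exact m.2 h
    obtain ⟨f, hf⟩ := geometric_hahn_banach_open_point cv op nm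
    have ef : ∀ z : ℂ, f z = z.re * f 1 + z.im * f Complex.I := fun z => by
      have : z = z.re • (1 : ℂ) + z.im • Complex.I := by simp
      conv_lhs => rw [this, map_add, map_smul, map_smul]
      rfl
    have le : ∀ t, f (Γ t) ≤ f (Γ s) := fun t =>
      closure_minimal (s := Ω) (t := {z | f z ≤ f (Γ s)}) (fun a h => (hf a h).le)
        (isClosed_le f.continuous continuous_const) (frontier_subset_closure (fr ▸ ⟨t, rfl⟩))
    have d := ((dX s).mul_const (f 1)).add ((dY s).mul_const (f Complex.I))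
    have d0 := IsLocalMax.hasDerivAt_eq_zero (Eventually.of_forall fun t => by
      have := le t
      rw [ef, ef (Γ s)] at this
      exact this) d
    have cs := cos_sq_add_sin_sq (ψ s)
    set c := f 1 * cos (ψ s) + f Complex.I * sin (ψ s) with hc
    have eA : f 1 = c * cos (ψ s) := by
      rw [hc]; linear_combination (-(f 1)) * cs - sin (ψ s) * d0
    have eB : f Complex.I = c * sin (ψ s) := by
      rw [hc]; linear_combination (-(f Complex.I)) * cs + cos (ψ s) * d0
    have le' : ∀ t, c * (((Γ t).re - (Γ s).re) * cos (ψ s) +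
        ((Γ t).im - (Γ s).im) * sin (ψ s)) ≤ 0 := fun t => by
      have := le t
      rw [ef, ef (Γ s), eA, eB] at this
      linarith
    have c0 : c ≠ 0 := by
      intro h
      obtain ⟨a, ha⟩ : Ω.Nonempty := closure_nonempty_iff.1 ⟨_, frontier_subset_closure m⟩
      have := hf a ha
      rw [ef, ef (Γ s), eA, eB, h] at this
      simp at this
    obtain ⟨t₁, ht⟩ := su (ψ s + π / 2)
    have st : s < t₁ := mo.lt_iff_lt.1 (by linarith)
    have du : ∀ t, HasDerivAt (fun t => ((Γ t).re - (Γ s).re) * cos (ψ s) +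
        ((Γ t).im - (Γ s).im) * sin (ψ s)) (-sin (ψ t - ψ s)) t := fun t => by
      refine ((((dX t).sub_const _).mul_const _).add (((dY t).sub_const _).mul_const _)).congr_deriv ?_
      rw [sin_sub]; ring
    have an := strictAntiOn_of_deriv_neg (convex_Icc s t₁)
      (fun t _ => (du t).continuousAt.continuousWithinAt) (fun t h => by
        rw [interior_Icc] at h
        rw [(du t).deriv, neg_lt_zero]
        exact sin_pos_of_pos_of_lt_pi (by linarith [mo h.1]) (by linarith [mo h.2]))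
      (left_mem_Icc.2 st.le) (right_mem_Icc.2 st.le) st
    simp only [sub_self, zero_mul, add_zero] at an
    have c1 : 0 < c := by
      refine lt_of_le_of_ne ?_ c0.symm
      by_contra h
      push Not at h
      nlinarith [le' t₁]
    intro t
    by_contra h
    push Not at h
    nlinarith [le' t]
  have k1 : k = 1 := by
    have a : (0 : ℝ) < k := by
      by_contra h; push Not at h; nlinarith
    have a' : 0 < k := by exact_mod_cast a
    by_contra hk
    have b : (2 : ℝ) ≤ k := by exact_mod_cast (by omega : 2 ≤ k)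
    obtain ⟨s₁, h1⟩ := su (ψ 0 + 2 * π)
    have l0 : 0 < s₁ := mo.lt_iff_lt.1 (by linarith)
    have l1 : s₁ < 0 + L := mo.lt_iff_lt.1 (by rw [pψ]; nlinarith)
    have u1 := sup 0 s₁
    have u2 := sup s₁ 0
    rw [h1, cos_add_two_pi, sin_add_two_pi] at u2
    have d := (((dX 0).const_sub (Γ s₁).re).mul (dψ 0).cos).add
      (((dY 0).const_sub (Γ s₁).im).mul (dψ 0).sin)
    have d0 := IsLocalMax.hasDerivAt_eq_zero (Eventually.of_forall fun s => by
      have := sup s s₁
      simp only [Pi.add_apply, Pi.mul_apply]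
      linarith) d
    have cs := cos_sq_add_sin_sq (ψ 0)
    have v1 : ((Γ s₁).re - (Γ 0).re) * cos (ψ 0) + ((Γ s₁).im - (Γ 0).im) * sin (ψ 0) = 0 := by
      linarith
    have v2 : -((Γ s₁).re - (Γ 0).re) * sin (ψ 0) + ((Γ s₁).im - (Γ 0).im) * cos (ψ 0) = 0 := by
      apply mul_left_cancel₀ (k0 0).ne'
      linarith
    have e : Γ s₁ = Γ 0 := by
      apply Complex.ext
      · linear_combination cos (ψ 0) * v1 - sin (ψ 0) * v2 - ((Γ s₁).re - (Γ 0).re) * cs
      · linear_combination sin (ψ 0) * v1 + cos (ψ 0) * v2 - ((Γ s₁).im - (Γ 0).im) * cs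
    have := inj ⟨l0.le, by linarith⟩ ⟨le_rfl, L0⟩ e
    linarith
  subst k1
  exact ⟨ψ, κ, sψ, dψ, k0, tg, fun s => by simpa using pψ s, mo, su⟩

theorem exists_support (T : Table Ω L Γ) : ∃ (h ψ σ : ℝ → ℝ), SmoothTable h ∧ Continuous ψ ∧
    Continuous σ ∧ (∀ s, σ (ψ s) = s) ∧ (∀ θ, ψ (σ θ) = θ) ∧ (∀ s, ψ (s + L) = ψ s + 2 * π) ∧
    (∀ θ, σ (θ + 2 * π) = σ θ + L) ∧
    (∀ s, deriv Γ s = Complex.I * Complex.exp (ψ s * Complex.I)) ∧ ∀ θ, bdry h θ = Γ (σ θ) := by
  obtain ⟨ψ, κ, sψ, dψ, k0, tg, pψ, mo, su⟩ := exists_angle' T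
  obtain ⟨-, -, -, -, sm, per, -, -, -, -⟩ := T
  let E := (mo.orderIsoOfSurjective ψ su).toHomeomorph
  have eE : (E : ℝ → ℝ) = ψ := rfl
  let σ : ℝ → ℝ := E.symm
  have sσ : ContDiff ℝ ∞ σ := E.contDiff_symm_deriv (fun s => (k0 s).ne') dψ sψ
  have a1 : ∀ s, σ (ψ s) = s := E.symm_apply_apply
  have a2 : ∀ θ, ψ (σ θ) = θ := E.apply_symm_apply
  have pσ : ∀ θ, σ (θ + 2 * π) = σ θ + L := fun θ => mo.injective (by rw [a2, pψ, a2])
  have dσ : ∀ θ, HasDerivAt σ (deriv σ θ) θ := fun θ =>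
    ((contDiff_infty_iff_deriv.1 sσ).1 θ).hasDerivAt
  have σ0 : ∀ θ, 0 < deriv σ θ := by
    intro θ
    have a := (dψ (σ θ)).comp θ (dσ θ)
    have b : ψ ∘ σ = id := funext a2
    rw [b] at a
    have c := a.unique (hasDerivAt_id θ)
    by_contra h
    push Not at h
    nlinarith [k0 (σ θ)]
  have dΓ : ∀ θ, HasDerivAt (fun θ => Γ (σ θ))
      (deriv σ θ • (Complex.I * Complex.exp (θ * Complex.I))) θ := fun θ => by
    have := (((contDiff_infty_iff_deriv.1 sm).1 (σ θ)).hasDerivAt).scomp θ (dσ θ)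
    rwa [tg, a2] at this
  have dX : ∀ θ, HasDerivAt (fun θ => (Γ (σ θ)).re) (-(deriv σ θ * sin θ)) θ := fun θ => by
    exact (Complex.reCLM.hasFDerivAt.comp_hasDerivAt θ (dΓ θ)).congr_deriv
      (by simp [Complex.exp_ofReal_mul_I_im])
  have dY : ∀ θ, HasDerivAt (fun θ => (Γ (σ θ)).im) (deriv σ θ * cos θ) θ := fun θ => by
    exact (Complex.imCLM.hasFDerivAt.comp_hasDerivAt θ (dΓ θ)).congr_deriv
      (by simp [Complex.exp_ofReal_mul_I_re])
  let h : ℝ → ℝ := fun θ => (Γ (σ θ)).re * cos θ + (Γ (σ θ)).im * sin θ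
  have d1 : deriv h = fun θ => -((Γ (σ θ)).re * sin θ) + (Γ (σ θ)).im * cos θ := by
    funext θ
    refine (HasDerivAt.congr_deriv
      (((dX θ).mul (hasDerivAt_cos θ)).add ((dY θ).mul (hasDerivAt_sin θ))) ?_).deriv
    ring
  have d2 : ∀ θ, deriv (deriv h) θ = deriv σ θ - h θ := by
    intro θ
    rw [d1]
    refine (HasDerivAt.congr_deriv
      (((dX θ).mul (hasDerivAt_sin θ)).neg.add ((dY θ).mul (hasDerivAt_cos θ))) ?_).deriv
    simp only [h]
    linear_combination (deriv σ θ) * cos_sq_add_sin_sq θ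
  refine ⟨h, ψ, σ, ⟨?_, fun θ => ?_, fun θ => ?_⟩, sψ.continuous, sσ.continuous, a1, a2, pψ, pσ, tg,
    fun θ => ?_⟩
  · exact ((Complex.reCLM.contDiff.comp (sm.comp sσ)).mul contDiff_cos).add
      ((Complex.imCLM.contDiff.comp (sm.comp sσ)).mul contDiff_sin)
  · simp only [h, pσ, per (σ θ), cos_add_two_pi, sin_add_two_pi]
  · rw [d2]; linarith [σ0 θ]
  · have cs := cos_sq_add_sin_sq θ
    unfold bdry
    rw [d1]
    apply Complex.ext
    · simp [h, Complex.exp_ofReal_mul_I_re, Complex.exp_ofReal_mul_I_im, -Complex.ofReal_cos,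
        -Complex.ofReal_sin]
      linear_combination (Γ (σ θ)).re * cs
    · simp [h, Complex.exp_ofReal_mul_I_re, Complex.exp_ofReal_mul_I_im, -Complex.ofReal_cos,
        -Complex.ofReal_sin]
      linear_combination (Γ (σ θ)).im * cs

end Vale.Agent.P097B.Arc
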