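import Mathlib

/-! # P097B : the billiard in a convex domain, in arclength coordinates -/

namespace Vale.Agent.P097B.Arc

open Real
open scoped ContDiff ComplexConjugate

/-- `Ω` is a bounded convex open subset of the plane whose boundary is the smooth simple closed
curve `Γ` of length `L`, parametrised counterclockwise by arclength, with positive curvature. -/
def Table (Ω : Set ℂ) (L : ℝ) (Γ : ℝ → ℂ) : Prop :=
  IsOpen Ω ∧ Bornology.IsBounded Ω ∧ Convex ℝ Ω ∧ 0 < L ∧ ContDiff ℝ ∞ Γ ∧
    Function.Periodic Γ L ∧ Set.InjOn Γ (Set.Ico 0 L) ∧ Set.range Γ = frontier Ω ∧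
    (∀ s, ‖deriv Γ s‖ = 1) ∧ ∀ s, 0 < (conj (deriv Γ s) * deriv (deriv Γ) s).im

/-- The phase annulus: arclength position of the impact, and angle of the outgoing velocity with
the positive tangent. -/
abbrev Phase (L : ℝ) : Type := AddCircle L × Set.Ioo (0 : ℝ) π

/-- `y` is the image of `x` under the billiard map: the ball flies a distance `ℓ > 0` in the
direction which makes the angle `x.2` with the tangent at `x.1`, and this direction makes the angle
`-y.2` with the tangent at the next impact point `y.1`. -/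
def Bounce (L : ℝ) (Γ : ℝ → ℂ) (x y : Phase L) : Prop :=
  ∃ s s' ℓ : ℝ, (s : AddCircle L) = x.1 ∧ (s' : AddCircle L) = y.1 ∧ 0 < ℓ ∧
    Γ s' = Γ s + ℓ * (deriv Γ s * Complex.exp ((x.2 : ℝ) * Complex.I)) ∧
    deriv Γ s * Complex.exp ((x.2 : ℝ) * Complex.I) =
      deriv Γ s' * Complex.exp (-((y.2 : ℝ) * Complex.I))

/-- `c` is a simple closed curve, not contractible in the phase annulus, which the billiard map
sends into itself. -/
def RotCurve (L : ℝ) (Γ : ℝ → ℂ) (c : C(AddCircle (1 : ℝ), Phase L)) : Prop :=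
  Function.Injective c ∧ ¬ c.Nullhomotopic ∧ ∀ t, ∃ s, Bounce L Γ (c t) (c s)

/-- For some `η > 0` every phase point at angle less than `η` lies on an invariant rotational
curve. -/
def Filled (L : ℝ) (Γ : ℝ → ℂ) : Prop :=
  ∃ η : ℝ, 0 < η ∧ ∀ x : Phase L, (x.2 : ℝ) < η → ∃ c, RotCurve L Γ c ∧ x ∈ Set.range c

/-- `Ω` is the interior of an ellipse (or a disc) with centre `c`, half axes `a`, `b`, and first
axis in the direction `φ`. -/
def IsEllipse (Ω : Set ℂ) : Prop :=
  ∃ (c : ℂ) (a b φ : ℝ), 0 < a ∧ 0 < b ∧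
    Ω = {z | (((z - c) * Complex.exp (-(φ * Complex.I))).re / a) ^ 2 +
      (((z - c) * Complex.exp (-(φ * Complex.I))).im / b) ^ 2 < 1}

end Vale.Agent.P097B.Arc
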