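import Vale.Agent.P097B.Cv

/-! # P097B : Birkhoff's graph theorem for twist maps without trapping regions -/

set_option linter.all false

namespace Vale.Agent.P097B

open Real Set Filter Topology

/-- the open strip -/
def XX : Set ℂ := {z | 0 < z.im ∧ z.im < π}

theorem oX : IsOpen XX :=
  (isOpen_lt continuous_const Complex.continuous_im).inter
    (isOpen_lt Complex.continuous_im continuous_const)

theorem sX {p : ℝ} {z : ℂ} : z + p ∈ XX ↔ z ∈ XX := by simp [XX]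

/-- a periodic open set does not absorb another periodic open set -/
def NT (H : ℂ → ℂ) (p : ℝ) : Prop := ∀ A N : Set ℂ, IsOpen A → IsOpen N → A ⊆ XX → N ⊆ XX →
  (∀ z : ℂ, z + p ∈ A ↔ z ∈ A) → (∀ z : ℂ, z + p ∈ N ↔ z ∈ N) → Disjoint A N → MapsTo H A A →
  MapsTo H N A → N = ∅

theorem trap {p c : ℝ} {U : Set ℂ} (hU : IsOpen U) (hc : IsPreconnected U) (hX : U ⊆ XX)
    (hp : ∀ z : ℂ, z + p ∈ U ↔ z ∈ U) {H : ℂ → ℂ} (nt : NT H p) (cH : ContinuousOn H XX)
    (pH : ∀ z ∈ XX, H (z + p) = H z + p) (hH : MapsTo H U U) {ξ : ℂ → ℝ → ℝ}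
    (c2 : ∀ w ∈ U, ∀ t, ContinuousAt (fun q : ℂ × ℝ => ξ q.1 q.2) (w, t))
    (far : ∀ w₀ ∈ U, ∃ T, ∀ᶠ w in 𝓝 w₀, ∀ t, T ≤ |t| → ξ w t ≠ c)
    (sh : ∀ w ∈ U, ∀ t, ξ (w + p) (t + 1) = ξ w t)
    (imp : ∀ w ∈ U, (∀ t, ξ w t ≤ c) → ∀ t, ξ (H w) t < c) (ne : ∃ w ∈ U, ∀ t, ξ w t < c)
    (pert : ∀ w₀ ∈ U, ∀ t₀, ξ w₀ t₀ = c → ∃ᶠ w in 𝓝 w₀, c < ξ w t₀) :
    ∀ w ∈ U, ∀ t, ξ w t < c := by
  let A : Set ℂ := {w | w ∈ U ∧ ∀ t, ξ w t < c}
  let B : Set ℂ := {w | w ∈ U ∧ ∃ t, c < ξ w t}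
  have ct : ∀ w ∈ U, Continuous (ξ w) := fun w hw => continuous_iff_continuousAt.2 fun t =>
    (c2 w hw t).comp (f := fun t => (w, t)) (continuous_const.prodMk continuous_id).continuousAt
  have oA : IsOpen A := by
    refine isOpen_iff_mem_nhds.2 fun w₀ h => ?_
    obtain ⟨T, hT⟩ := far w₀ h.1
    have k := (isCompact_Icc (a := -|T|) (b := |T|)).eventually_forall_of_forall_eventually
      (x₀ := w₀) (P := fun w t => ξ w t < c)
      (fun t _ => (c2 w₀ h.1 t).eventually_lt continuousAt_const (h.2 t))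
    filter_upwards [hT, k, hU.mem_nhds h.1] with w a1 a2 a3
    refine ⟨a3, stay (ct w a3) (t₁ := 0) (a2 0 ⟨by simp, by simp⟩) fun t => ?_⟩
    rcases le_total T |t| with b | b
    · exact a1 t b
    · exact (a2 t (abs_le.1 (b.trans (le_abs_self T)))).ne
  have oB : IsOpen B := by
    refine isOpen_iff_mem_nhds.2 fun w₀ h => ?_
    obtain ⟨t, ht⟩ := h.2
    have k : ContinuousAt (fun w => ξ w t) w₀ :=
      (c2 w₀ h.1 t).comp (f := fun w => (w, t)) (continuous_id.prodMk continuous_const).continuousAt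
    filter_upwards [continuousAt_const.eventually_lt k ht, hU.mem_nhds h.1] with w a1 a2
    exact ⟨a2, t, a1⟩
  have pA : ∀ z : ℂ, z + p ∈ A ↔ z ∈ A := by
    intro z
    constructor
    · intro h
      have hz := (hp z).1 h.1
      exact ⟨hz, fun t => by rw [← sh z hz]; exact h.2 _⟩
    · intro h
      refine ⟨(hp z).2 h.1, fun t => ?_⟩
      have := sh z h.1 (t - 1)
      rw [sub_add_cancel] at this
      rw [this]; exact h.2 _
  have pB : ∀ z : ℂ, z + p ∈ B ↔ z ∈ B := by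
    intro z
    constructor
    · rintro ⟨h, t, ht⟩
      have hz := (hp z).1 h
      have := sh z hz (t - 1)
      rw [sub_add_cancel] at this
      exact ⟨hz, t - 1, by rwa [← this]⟩
    · rintro ⟨h, t, ht⟩
      exact ⟨(hp z).2 h, t + 1, by rwa [sh z h]⟩
  have dAB : Disjoint A B := disjoint_left.2 fun w a ⟨_, t, ht⟩ => by linarith [a.2 t]
  have hN := nt A (B ∩ H ⁻¹' A) oA
    ((cH.mono fun w h => hX h.1).isOpen_inter_preimage oB oA) (fun w h => hX h.1)
    (fun w h => hX h.1.1) pA (fun z => by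
      constructor
      · rintro ⟨a, b⟩
        have a' := (pB z).1 a
        refine ⟨a', ?_⟩
        rw [mem_preimage, pH z (hX a'.1)] at b
        exact (pA _).1 b
      · rintro ⟨a, b⟩
        refine ⟨(pB z).2 a, ?_⟩
        rw [mem_preimage, pH z (hX a.1)]
        exact (pA _).2 b)
    (dAB.mono_right inter_subset_left)
    (fun w h => ⟨hH h.1, imp w h.1 fun t => (h.2 t).le⟩) (fun w h => h.2)
  have cov : U ⊆ A ∪ B := by
    intro w hw
    by_contra hn
    simp only [mem_union, not_or] at hn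
    have h1 : ∀ t, ξ w t ≤ c := fun t => not_lt.1 fun h => hn.2 ⟨hw, t, h⟩
    have h2 : ∃ t, ξ w t = c := by
      by_contra h
      push Not at h
      exact hn.1 ⟨hw, fun t => lt_of_le_of_ne (h1 t) (h t)⟩
    obtain ⟨t₀, h2⟩ := h2
    have h3 : H w ∈ A := ⟨hH hw, imp w hw h1⟩
    have h4 : ∀ᶠ w' in 𝓝 w, H w' ∈ A :=
      (cH.continuousAt (oX.mem_nhds (hX hw))).eventually (oA.mem_nhds h3)
    obtain ⟨w', a1, a2, a3⟩ :=
      ((pert w hw t₀ h2).and_eventually (h4.and (hU.mem_nhds hw))).exists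
    have : w' ∈ B ∩ H ⁻¹' A := ⟨⟨a3, t₀, a1⟩, a2⟩
    rw [hN] at this
    exact this
  obtain ⟨w₀, a1, a2⟩ := ne
  exact fun w hw => (hc.subset_left_of_subset_union oA oB dAB cov ⟨w₀, a1, a1, a2⟩ hw).2

/-- `F` is a twist homeomorphism of the strip with inverse `G` -/
structure Tw (F G : ℂ → ℂ) (p : ℝ) : Prop where
  fx : MapsTo F XX XX
  gx : MapsTo G XX XX
  gf : ∀ z ∈ XX, G (F z) = z
  fg : ∀ z ∈ XX, F (G z) = z
  cf : ContinuousOn F XX
  cg : ContinuousOn G XX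
  pf : ∀ z ∈ XX, F (z + p) = F z + p
  t1 : ∀ z ∈ XX, ∀ w ∈ XX, z.re = w.re → z.im < w.im → (F z).re < (F w).re
  t2 : ∀ z ∈ XX, ∀ w ∈ XX, z.re = w.re → z.im < w.im → (G w).re < (G z).re
  low : ∀ m, 0 < m → ∃ z ∈ XX, z.im < m ∧ (F z).im < m
  nf : NT F p
  ng : NT G p

theorem Tw.pg {F G : ℂ → ℂ} {p : ℝ} (T : Tw F G p) : ∀ z ∈ XX, G (z + p) = G z + p := by
  intro z hz
  have := T.gf _ (sX.2 (T.gx hz) : G z + p ∈ XX)
  rwa [T.pf _ (T.gx hz), T.fg z hz] at this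

/-- an invariant curve and the map induced on its parameter -/
structure St (F G : ℂ → ℂ) (p : ℝ) (γ : ℝ → ℂ) (g : ℝ → ℝ) : Prop where
  tw : Tw F G p
  cv : Cv γ p
  inj : Function.Injective γ
  hx : ∀ t, γ t ∈ XX
  hg : ∀ t, γ (g t) = F (γ t)

variable {F G : ℂ → ℂ} {p : ℝ} {γ : ℝ → ℂ} {g : ℝ → ℝ}

theorem St.emb (S : St F G p γ g) : IsClosedEmbedding γ :=
  .of_continuous_injective_isClosedMap S.cv.cont S.inj S.cv.proper.isClosedMap

theorem St.cg (S : St F G p γ g) : Continuous g := by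
  refine S.emb.isEmbedding.continuous_iff.2 ?_
  have : γ ∘ g = F ∘ γ := funext S.hg
  rw [this]
  exact S.tw.cf.comp_continuous S.cv.cont S.hx

theorem St.pg (S : St F G p γ g) (t : ℝ) : g (t + 1) = g t + 1 := by
  apply S.inj
  rw [S.hg, S.cv.per, S.cv.per, S.tw.pf _ (S.hx t), S.hg]

theorem St.top (S : St F G p γ g) : Tendsto g atTop atTop := per_top S.cg S.pg one_pos

theorem St.sur (S : St F G p γ g) : Function.Surjective g :=
  S.cg.surjective S.top (per_bot S.cg S.pg one_pos)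

theorem St.nf (S : St F G p γ g) {w : ℂ} (hx : w ∈ XX) (hw : w ∉ range γ) : F w ∉ range γ := by
  rintro ⟨s, hs⟩
  obtain ⟨t, rfl⟩ := S.sur s
  rw [S.hg] at hs
  have := congrArg G hs
  rw [S.tw.gf _ (S.hx t), S.tw.gf _ hx] at this
  exact hw ⟨t, this⟩

theorem St.ng (S : St F G p γ g) {w : ℂ} (hx : w ∈ XX) (hw : w ∉ range γ) : G w ∉ range γ := by
  rintro ⟨s, hs⟩
  have := congrArg F hs
  rw [S.tw.fg _ hx, ← S.hg] at this
  exact hw ⟨_, this⟩

theorem St.key (S : St F G p γ g) {w : ℂ} (hx : w ∈ XX) (hw : w ∉ range γ) :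
    ∃ α : ℝ → ℝ, (∀ t, Ar ⟨(γ t - w).re, (F (γ t) - F w).re⟩ (α t)) ∧ ∀ c, cos c = 0 → ∀ t,
      ((Th γ w t ≤ c ↔ α t ≤ c) ∧ (Th γ w t < c ↔ α t < c)) ∧
      (α t - π / 2 ≤ c ↔ Th γ (F w) (g t) ≤ c) ∧ (α t - π / 2 < c ↔ Th γ (F w) (g t) < c) := by
  have hp := pi_pos
  have T := S.tw
  have L := S.cv.lf hw
  have LF := S.cv.lf (S.nf hx hw)
  have cF : Continuous fun t => F (γ t) := T.cf.comp_continuous S.cv.cont S.hx
  have P1 : ∀ t, Pat (γ t - w) ⟨(γ t - w).re, (F (γ t) - F w).re⟩ := by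
    intro t
    refine ⟨Iff.rfl, Iff.rfl, fun h0 => ?_⟩
    simp only [Complex.sub_re, Complex.sub_im] at h0 ⊢
    rcases lt_trichotomy (γ t).im w.im with a | a | a
    · have := T.t1 _ (S.hx t) _ hx (by linarith) a
      exact mul_pos_of_neg_of_neg (by linarith) (by linarith)
    · exact absurd ⟨t, Complex.ext (by linarith) a⟩ hw
    · have := T.t1 _ hx _ (S.hx t) (by linarith) a
      exact mul_pos (by linarith) (by linarith)
  have P2 : ∀ t, Pat (γ (g t) - F w) ⟨(F (γ t) - F w).re, -(γ t - w).re⟩ := by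
    intro t
    rw [S.hg]
    refine ⟨Iff.rfl, Iff.rfl, fun h0 => ?_⟩
    simp only [Complex.sub_re, Complex.sub_im] at h0 ⊢
    rcases lt_trichotomy (F (γ t)).im (F w).im with a | a | a
    · have := T.t2 _ (T.fx (S.hx t)) _ (T.fx hx) (by linarith) a
      rw [T.gf _ hx, T.gf _ (S.hx t)] at this
      exact mul_pos_of_neg_of_neg (by linarith) (by linarith)
    · exact absurd ⟨g t, by rw [S.hg]; exact Complex.ext (by linarith) a⟩ (S.nf hx hw)
    · have := T.t2 _ (T.fx hx) _ (T.fx (S.hx t)) (by linarith) a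
      rw [T.gf _ hx, T.gf _ (S.hx t)] at this
      exact mul_pos (by linarith) (by linarith)
  have e1 : ∀ᶠ t in atTop, 0 < (γ t - w).re := by
    filter_upwards [S.cv.top.eventually_gt_atTop w.re] with t h
    simpa using h
  have e2 : ∀ᶠ t in atTop, 0 < (F (γ t) - F w).re := by
    filter_upwards [(S.cv.top.comp S.top).eventually_gt_atTop (F w).re] with t h
    simpa [S.hg] using h
  obtain ⟨α, LA⟩ := exists_lf (v := fun t => (⟨(γ t - w).re, (F (γ t) - F w).re⟩ : ℂ))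
    (Complex.equivRealProdCLM.symm.continuous.comp
      ((Complex.continuous_re.comp (S.cv.cont.sub continuous_const)).prodMk
        (Complex.continuous_re.comp (cF.sub continuous_const))))
    (fun t h => by
      have a := congrArg Complex.re h
      have b := congrArg Complex.im h
      have := (P1 t).2.2 a
      simp only [Complex.zero_im] at b
      simp only [b, mul_zero, lt_self_iff_false] at this) e1
  have LR : Lf (fun t => (⟨(F (γ t) - F w).re, -(γ t - w).re⟩ : ℂ)) (fun t => α t - π / 2) := by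
    refine ⟨LA.1.sub continuous_const, fun t => (LA.2.1 t).rot, ?_⟩
    filter_upwards [LA.2.2, e2] with t a b
    have c1 := (LA.2.1 t).sin_pos.2 b
    obtain ⟨a1, a2⟩ := abs_lt.1 a
    have : 0 < α t := by
      by_contra h
      push Not at h
      have := sin_nonpos_of_nonpos_of_neg_pi_le h (by linarith)
      linarith
    rw [abs_lt]; constructor <;> linarith
  have LG : Lf (fun t => γ (g t) - F w) (fun t => Th γ (F w) (g t)) :=
    ⟨LF.1.comp S.cg, fun t => LF.2.1 _, S.top.eventually LF.2.2⟩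
  refine ⟨α, LA.2.1, fun c hc t => ⟨L.cmp LA P1 hc t, ?_⟩⟩
  have := LG.cmp LR P2 hc t
  exact ⟨this.1.symm, this.2.symm⟩

theorem St.imp (S : St F G p γ g) {w : ℂ} (hx : w ∈ XX) (hw : w ∉ range γ) {c : ℝ}
    (hc : cos c = 0) (t : ℝ) (h : Th γ w t ≤ c) : Th γ (F w) (g t) < c := by
  obtain ⟨α, -, k⟩ := S.key hx hw
  obtain ⟨⟨k1, -⟩, -, k2⟩ := k c hc t
  exact k2.1 (by linarith [k1.1 h, pi_pos])

end Vale.Agent.P097B
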