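import Vale.Agent.P097.Bdl.B2
import Vale.Agent.P097.Reg.STab
import Vale.Agent.P097B.Tw

/-! # P097B : the billiard map and its inverse -/

set_option linter.all false

namespace Vale.Agent.P097B

open Real Set Filter Topology Vale.Agent.P097

variable {h : ℝ → ℝ} {ε : ℝ}

theorem adm (H : SmoothTable h) : Sm.Adm h := Sm.adm_of H.1 H.2.1 H.2.2

theorem dT (H : SmoothTable h) (φ ψ : ℝ) :
    HasDerivAt (fun x => T h φ x) (rad h ψ * cos (ψ - φ)) ψ := by
  have h1 := (adm H).an.hasDerivAt ψ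
  have h2 := (adm H).an.deriv.hasDerivAt ψ
  have h3 : HasDerivAt (fun x : ℝ => x - φ) 1 ψ := (hasDerivAt_id ψ).sub_const φ
  have h4 := (h1.mul h3.sin).add (h2.mul h3.cos)
  refine h4.congr_deriv ?_
  simp only [rad]
  ring

theorem T_lt (H : SmoothTable h) {φ δ δ' : ℝ} (h1 : 0 < δ) (h2 : δ < π) (h3 : 0 < δ')
    (h4 : δ' < π) (hK : K h φ (φ - δ) = K h φ (φ + δ')) : T h φ (φ - δ) < T h φ (φ + δ') := by
  have hp := H.2.1
  have Hr : ∀ x, 0 < rad h x := H.2.2
  set β := (δ' - δ) / 2 with hβ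
  have hcos : 0 < cos β :=
    cos_pos_of_mem_Ioo ⟨by rw [hβ]; linarith only [h3, h2], by rw [hβ]; linarith⟩
  have hd : ∀ x, HasDerivAt (fun t => T h (φ + β) t) (rad h x * cos (x - (φ + β))) x :=
    fun x => dT H _ x
  rcases le_or_gt (δ + δ') π with hle | hgt
  · have hm : StrictMonoOn (fun t => T h (φ + β) t) (Icc (φ - δ) (φ + δ')) := by
      apply strictMonoOn_of_deriv_pos (convex_Icc _ _)
      · exact fun x _ => (hd x).continuousAt.continuousWithinAt
      · intro x hx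
        rw [interior_Icc] at hx
        rw [(hd x).deriv]
        apply mul_pos (Hr x)
        apply cos_pos_of_mem_Ioo
        constructor
        · rw [hβ]; linarith [hx.1]
        · rw [hβ]; linarith [hx.2]
    have := hm (left_mem_Icc.2 (by linarith)) (right_mem_Icc.2 (by linarith)) (by linarith)
    simp only [T_rotate, hK] at this
    have h5 : cos β * T h φ (φ - δ) < cos β * T h φ (φ + δ') := by linarith
    exact lt_of_mul_lt_mul_left h5 hcos.le
  · have hm : StrictAntiOn (fun t => T h (φ + β) t) (Icc (φ + δ') (φ - δ + 2 * π)) := by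
      apply strictAntiOn_of_deriv_neg (convex_Icc _ _)
      · exact fun x _ => (hd x).continuousAt.continuousWithinAt
      · intro x hx
        rw [interior_Icc] at hx
        rw [(hd x).deriv]
        apply mul_neg_of_pos_of_neg (Hr x)
        apply cos_neg_of_pi_div_two_lt_of_lt
        · rw [hβ]; linarith [hx.1]
        · rw [hβ]; linarith [hx.2]
    have := hm (left_mem_Icc.2 (by linarith)) (right_mem_Icc.2 (by linarith))
      (show φ + δ' < φ - δ + 2 * π by linarith)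
    simp only [T_shift hp] at this
    simp only [T_rotate, hK] at this
    have h5 : cos β * T h φ (φ - δ) < cos β * T h φ (φ + δ') := by linarith
    exact lt_of_mul_lt_mul_left h5 hcos.le

/-- the height in the direction `φ` of the boundary point ahead (`ε = 1`) or behind (`ε = -1`) -/
noncomputable def kk (h : ℝ → ℝ) (ε φ d : ℝ) : ℝ := K h φ (φ + ε * d)

theorem kk_anti (H : SmoothTable h) (e : ε = 1 ∨ ε = -1) (φ : ℝ) :
    StrictAntiOn (kk h ε φ) (Icc 0 π) := by
  intro a ha b hb hab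
  unfold kk
  rcases e with rfl | rfl
  · exact Sm.K_strictAnti (adm H) φ ⟨by linarith [ha.1], by linarith [ha.2]⟩
      ⟨by linarith [hb.1], by linarith [hb.2]⟩ (by linarith)
  · exact Sm.K_strictMono (adm H) φ ⟨by linarith [hb.2], by linarith [hb.1]⟩
      ⟨by linarith [ha.2], by linarith [ha.1]⟩ (by linarith)

theorem kk_zero (φ : ℝ) : kk h ε φ 0 = h φ := by simp [kk, K_self]

theorem kk_pi (H : SmoothTable h) (e : ε = 1 ∨ ε = -1) (φ : ℝ) : kk h ε φ π = -h (φ + π) := by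
  rcases e with rfl | rfl
  · simp [kk, K]
  · have := H.2.1 (φ + -π)
    rw [show φ + -π + 2 * π = φ + π by ring] at this
    simp [kk, K, this]

theorem kk_cont (H : SmoothTable h) : Continuous fun q : ℝ × ℝ => kk h ε q.1 q.2 :=
  (Sm.continuous_K (adm H).an).comp
    (continuous_fst.prodMk (continuous_fst.add (continuous_const.mul continuous_snd)))

theorem neg_e (e : ε = 1 ∨ ε = -1) : -ε = 1 ∨ -ε = -1 := by
  rcases e with rfl | rfl <;> simp

/-- the angle at the next (`ε = 1`) or previous (`ε = -1`) impact -/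
noncomputable def dd (h : ℝ → ℝ) (ε : ℝ) (z : ℂ) : ℝ :=
  Function.invFunOn (kk h ε (z.re + ε * z.im)) (Icc 0 π) (K h (z.re + ε * z.im) z.re)

/-- the billiard map (`ε = 1`) and its inverse (`ε = -1`) -/
noncomputable def HH (h : ℝ → ℝ) (ε : ℝ) (z : ℂ) : ℂ :=
  ⟨z.re + ε * z.im + ε * dd h ε z, dd h ε z⟩

theorem kk_self (z : ℂ) : kk h (-ε) (z.re + ε * z.im) z.im = K h (z.re + ε * z.im) z.re := by
  unfold kk
  congr 1
  ring

theorem dd_spec (H : SmoothTable h) (e : ε = 1 ∨ ε = -1) {z : ℂ} (hz : z ∈ XX) :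
    0 < dd h ε z ∧ dd h ε z < π ∧
      kk h ε (z.re + ε * z.im) (dd h ε z) = K h (z.re + ε * z.im) z.re := by
  have hp := pi_pos
  set φ := z.re + ε * z.im
  have a1 : K h φ z.re < kk h ε φ 0 := by
    rw [← kk_self, kk_zero, ← kk_zero (h := h) (ε := -ε)]
    exact kk_anti H (neg_e e) φ ⟨le_rfl, hp.le⟩ ⟨hz.1.le, hz.2.le⟩ hz.1
  have a2 : kk h ε φ π < K h φ z.re := by
    rw [← kk_self, kk_pi H e, ← kk_pi H (neg_e e)]
    exact kk_anti H (neg_e e) φ ⟨hz.1.le, hz.2.le⟩ ⟨hp.le, le_rfl⟩ hz.2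
  have ex : ∃ d ∈ Icc 0 π, kk h ε φ d = K h φ z.re :=
    intermediate_value_Icc' hp.le
      ((kk_cont H).comp (continuous_const.prodMk continuous_id)).continuousOn ⟨a2.le, a1.le⟩
  have b1 : dd h ε z ∈ Icc 0 π := Function.invFunOn_mem ex
  have b2 : kk h ε φ (dd h ε z) = K h φ z.re := Function.invFunOn_eq ex
  refine ⟨lt_of_le_of_ne b1.1 fun c => ?_, lt_of_le_of_ne b1.2 fun c => ?_, b2⟩
  · rw [← c] at b2; linarith
  · rw [c] at b2; linarith

theorem dd_eq (H : SmoothTable h) (e : ε = 1 ∨ ε = -1) {z : ℂ} (hz : z ∈ XX) {d : ℝ}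
    (h0 : 0 ≤ d) (h1 : d ≤ π) (hd : kk h ε (z.re + ε * z.im) d = K h (z.re + ε * z.im) z.re) :
    dd h ε z = d := by
  obtain ⟨a, b, c⟩ := dd_spec H e hz
  exact (kk_anti H e _).injOn ⟨a.le, b.le⟩ ⟨h0, h1⟩ (c.trans hd.symm)

theorem HH_x (H : SmoothTable h) (e : ε = 1 ∨ ε = -1) : MapsTo (HH h ε) XX XX :=
  fun z hz => ⟨(dd_spec H e hz).1, (dd_spec H e hz).2.1⟩

theorem HH_line (H : SmoothTable h) (e : ε = 1 ∨ ε = -1) {z : ℂ} (hz : z ∈ XX) :
    (HH h ε z).re + -ε * (HH h ε z).im = z.re + ε * z.im ∧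
      K h (z.re + ε * z.im) (HH h ε z).re = K h (z.re + ε * z.im) z.re :=
  ⟨by simp only [HH]; ring, (dd_spec H e hz).2.2⟩

theorem HH_inv (H : SmoothTable h) (e : ε = 1 ∨ ε = -1) {z : ℂ} (hz : z ∈ XX) :
    HH h (-ε) (HH h ε z) = z := by
  obtain ⟨a, b⟩ := HH_line H e hz
  have k : dd h (-ε) (HH h ε z) = z.im := by
    refine dd_eq H (neg_e e) (HH_x H e hz) hz.1.le hz.2.le ?_
    rw [a, b, kk_self]
  apply Complex.ext
  · show (HH h ε z).re + -ε * (HH h ε z).im + -ε * dd h (-ε) (HH h ε z) = z.re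
    rw [a, k]; ring
  · exact k

theorem HH_per (H : SmoothTable h) (e : ε = 1 ∨ ε = -1) {z : ℂ} (hz : z ∈ XX) :
    HH h ε (z + (2 * π : ℝ)) = HH h ε z + (2 * π : ℝ) := by
  obtain ⟨a, b, c⟩ := dd_spec H e hz
  have k : dd h ε (z + (2 * π : ℝ)) = dd h ε z := by
    refine dd_eq H e (sX.2 hz) a.le b.le ?_
    simp only [Complex.add_re, Complex.add_im, Complex.ofReal_re, Complex.ofReal_im, add_zero]
    unfold kk at c ⊢
    rw [show z.re + 2 * π + ε * z.im = z.re + ε * z.im + 2 * π by ring,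
      show z.re + ε * z.im + 2 * π + ε * dd h ε z = z.re + ε * z.im + ε * dd h ε z + 2 * π by ring,
      K_per H.2.1, K_per H.2.1, c]
  apply Complex.ext
  · simp only [HH, k, Complex.add_re, Complex.add_im, Complex.ofReal_re, Complex.ofReal_im]
    ring
  · simp only [HH, k, Complex.add_im, Complex.ofReal_im, add_zero]

theorem HH_cont (H : SmoothTable h) (e : ε = 1 ∨ ε = -1) : ContinuousOn (HH h ε) XX := by
  have cφ : Continuous fun z : ℂ => z.re + ε * z.im := by fun_prop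
  have c1 : ∀ a, Continuous fun z : ℂ => kk h ε (z.re + ε * z.im) a := fun a =>
    (kk_cont H).comp (cφ.prodMk continuous_const)
  have c2 : Continuous fun z : ℂ => K h (z.re + ε * z.im) z.re :=
    (Sm.continuous_K (adm H).an).comp (cφ.prodMk Complex.continuous_re)
  have cd : ∀ z ∈ XX, ContinuousAt (dd h ε) z := by
    intro z hz
    obtain ⟨a1, a2, a3⟩ := dd_spec H e hz
    refine tendsto_order.2 ⟨fun a ha => ?_, fun b hb => ?_⟩
    · obtain ⟨c, k1, k2⟩ := exists_between (max_lt ha a1)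
      have k3 : 0 < c := lt_of_le_of_lt (le_max_right _ _) k1
      have k4 := kk_anti H e (z.re + ε * z.im) ⟨k3.le, by linarith⟩ ⟨a1.le, a2.le⟩ k2
      rw [a3] at k4
      filter_upwards [c2.continuousAt.eventually_lt (c1 c).continuousAt k4, oX.mem_nhds hz]
        with w b1 b2
      obtain ⟨d1, d2, d3⟩ := dd_spec H e b2
      refine lt_of_le_of_lt (le_max_left a 0) (k1.trans ?_)
      by_contra hc
      push Not at hc
      have := (kk_anti H e (w.re + ε * w.im)).antitoneOn ⟨d1.le, d2.le⟩ ⟨k3.le, by linarith⟩ hc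
      linarith
    · obtain ⟨c, k1, k2⟩ := exists_between (lt_min hb a2)
      have k3 : c < π := lt_of_lt_of_le k2 (min_le_right _ _)
      have k4 := kk_anti H e (z.re + ε * z.im) ⟨a1.le, a2.le⟩ ⟨by linarith, k3.le⟩ k1
      rw [a3] at k4
      filter_upwards [(c1 c).continuousAt.eventually_lt c2.continuousAt k4, oX.mem_nhds hz]
        with w b1 b2
      obtain ⟨d1, d2, d3⟩ := dd_spec H e b2
      refine lt_of_lt_of_le (lt_trans ?_ k2) (min_le_left b π)
      by_contra hc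
      push Not at hc
      have := (kk_anti H e (w.re + ε * w.im)).antitoneOn ⟨by linarith, k3.le⟩ ⟨d1.le, d2.le⟩ hc
      linarith
  intro z hz
  exact (Complex.equivRealProdCLM.symm.continuous.continuousAt.comp
    ((cφ.continuousAt.add (continuousAt_const.mul (cd z hz))).prodMk (cd z hz))).continuousWithinAt

theorem K_rot (φ β ψ : ℝ) : K h (φ - β) ψ = cos β * K h φ ψ - sin β * T h φ ψ := by
  unfold T K
  rw [show ψ - (φ - β) = (ψ - φ) + β by ring, sin_add, cos_add]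
  ring

theorem HH_tw (H : SmoothTable h) (e : ε = 1 ∨ ε = -1) {z w : ℂ} (hz : z ∈ XX) (hw : w ∈ XX)
    (h1 : z.re = w.re) (h2 : z.im < w.im) : ε * (HH h ε z).re < ε * (HH h ε w).re := by
  obtain ⟨a1, a2, a3⟩ := dd_spec H e hz
  obtain ⟨b1, b2, b3⟩ := dd_spec H e hw
  by_contra hc
  push Not at hc
  simp only [HH] at hc
  have s0 : 0 < sin (w.im - z.im) :=
    sin_pos_of_pos_of_lt_pi (by linarith) (by linarith [hz.1, hw.2])
  have k1 : w.im - z.im + dd h ε w ≤ dd h ε z := by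
    rcases e with rfl | rfl <;> linarith
  have k2 := (kk_anti H e (z.re + ε * z.im)).antitoneOn
    ⟨by linarith, by linarith⟩ ⟨a1.le, a2.le⟩ k1
  rw [a3] at k2
  unfold kk at k2 b3
  rw [show z.re + ε * z.im + ε * (w.im - z.im + dd h ε w) = w.re + ε * w.im + ε * dd h ε w by
      rw [h1]; ring,
    show z.re + ε * z.im = w.re + ε * w.im - ε * (w.im - z.im) by rw [h1]; ring, K_rot, K_rot,
    b3, h1] at k2
  rcases e with rfl | rfl
  · have := T_lt H (φ := w.re + w.im) hw.1 hw.2 b1 b2 (by simpa using b3.symm)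
    simp only [one_mul, add_sub_cancel_right] at k2 this
    nlinarith
  · have := T_lt H (φ := w.re - w.im) b1 b2 hw.1 hw.2 (by
      simpa [sub_eq_add_neg] using b3)
    simp only [neg_mul, one_mul, sin_neg, sub_add_cancel, ← sub_eq_add_neg] at k2 this
    nlinarith

theorem HH_low (H : SmoothTable h) {m : ℝ} (h0 : 0 < m) :
    ∃ z ∈ XX, z.im < m ∧ (HH h 1 z).im < m := by
  have hp := pi_pos
  set d := min m π / 2 with hd
  have d0 : 0 < d := by rw [hd]; positivity
  have d1 : d < m := by linarith [min_le_left m π, lt_min h0 hp]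
  have d2 : d < π := by linarith [min_le_right m π, lt_min h0 hp]
  have k : ∀ ε : ℝ, (ε = 1 ∨ ε = -1) → kk h ε 0 d ≤ kk h (-ε) 0 d → dd h ε ⟨-ε * d, d⟩ ≤ d := by
    intro ε e hk
    obtain ⟨a1, a2, a3⟩ := dd_spec H e (z := ⟨-ε * d, d⟩) ⟨d0, d2⟩
    rw [← kk_self] at a3
    simp only [neg_mul, neg_add_cancel] at a3
    by_contra hc
    push Not at hc
    have := kk_anti H e 0 ⟨d0.le, d2.le⟩ ⟨a1.le, a2.le⟩ hc
    simp only [neg_mul] at this
    linarith
  rcases le_total (kk h 1 0 d) (kk h (-1) 0 d) with a | a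
  · exact ⟨⟨-1 * d, d⟩, ⟨d0, d2⟩, d1, lt_of_le_of_lt (k 1 (Or.inl rfl) a) d1⟩
  · have x : (⟨-(-1) * d, d⟩ : ℂ) ∈ XX := ⟨d0, d2⟩
    refine ⟨HH h (-1) ⟨-(-1) * d, d⟩, HH_x H (Or.inr rfl) x,
      lt_of_le_of_lt (k (-1) (Or.inr rfl) (by simpa using a)) d1, ?_⟩
    have := HH_inv H (Or.inr rfl) x
    rw [neg_neg] at this
    rw [neg_neg, this]
    exact d1

theorem HH_bd (H : SmoothTable h) (e : ε = 1 ∨ ε = -1) {z : ℂ} (hz : z ∈ XX) :
    |(HH h ε z).re - z.re| ≤ 2 * π := by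
  obtain ⟨a1, a2, -⟩ := dd_spec H e hz
  simp only [HH]
  rw [abs_le]
  rcases e with rfl | rfl <;> constructor <;> linarith [hz.1, hz.2]

theorem HH_step (H : SmoothTable h) {a δ b δ' : ℝ} (S : Step h a δ b δ') :
    HH h 1 ⟨a, δ⟩ = ⟨b, δ'⟩ := by
  have hK := S.K_eq
  obtain ⟨h1, h2, h3, h4, h5, -⟩ := S
  have k : dd h 1 ⟨a, δ⟩ = δ' := by
    refine dd_eq H (Or.inl rfl) ⟨h1, h2⟩ h3.le h4.le ?_
    simp only [kk, one_mul]
    rw [hK, h5]
  simp only [HH, k, one_mul, h5]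

end Vale.Agent.P097B
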