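import Vale.Agent.P097.Bdl.B2
import Vale.Agent.P097.Reg.STab

/-!
# P097: the billiard map in the coordinates u = psi - delta, v = psi + delta

On the strip u < v < u + 2 pi the billiard map sends (u, v) to (v, g (u, v)) and its inverse sends
(u, v) to (g1 (u, v), u).
-/

set_option linter.all false

noncomputable section

namespace Vale.Agent.P097B.Bil

open Real Set Filter Topology Vale.Agent.P097

/-- the zero of a function in an interval -/
def zer (F : ℝ → ℝ) (a b : ℝ) : ℝ := Function.invFunOn F (Ioo a b) 0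

theorem zer_spec {F : ℝ → ℝ} {a b : ℝ} (hc : Continuous F) (hab : a ≤ b) (ha : 0 < F a)
    (hb : F b < 0) : zer F a b ∈ Ioo a b ∧ F (zer F a b) = 0 := by
  obtain ⟨x, hx, e⟩ := intermediate_value_Ioo' hab hc.continuousOn (show (0 : ℝ) ∈ Ioo _ _ from ⟨hb, ha⟩)
  exact Function.invFunOn_pos ⟨x, hx, e⟩

theorem zer_cont {X : Type*} [TopologicalSpace X] {F : X → ℝ → ℝ} {a b : X → ℝ} {S : Set X}
    (hc : Continuous fun p : X × ℝ => F p.1 p.2) (ca : Continuous a) (cb : Continuous b)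
    (hab : ∀ z, a z ≤ b z) (an : ∀ z, StrictAntiOn (F z) (Icc (a z) (b z)))
    (ha : ∀ z ∈ S, 0 < F z (a z)) (hb : ∀ z ∈ S, F z (b z) < 0) :
    ContinuousOn (fun z => zer (F z) (a z) (b z)) S := by
  have c1 : ∀ z, Continuous (F z) := fun z => hc.comp (Continuous.prodMk_right z)
  have c2 : ∀ x, Continuous fun z => F z x := fun x => hc.comp (Continuous.prodMk_left x)
  have sp := fun z hz => zer_spec (c1 z) (hab z) (ha z hz) (hb z hz)
  intro z hz
  obtain ⟨⟨s1, s2⟩, s3⟩ := sp z hz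
  refine tendsto_order.2 ⟨fun c hc' => ?_, fun c hc' => ?_⟩
  · obtain ⟨x, h1, h2⟩ := exists_between (max_lt hc' s1)
    have h3 : a z < x := lt_of_le_of_lt (le_max_right _ _) h1
    have h4 : c < x := lt_of_le_of_lt (le_max_left _ _) h1
    have h5 : 0 < F z x := by
      rw [← s3]
      exact an z ⟨h3.le, by linarith⟩ ⟨s1.le, s2.le⟩ h2
    have e1 : ∀ᶠ y in 𝓝 z, 0 < F y x := continuousAt_const.eventually_lt (c2 x).continuousAt h5
    have e2 : ∀ᶠ y in 𝓝 z, x < b y :=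
      continuousAt_const.eventually_lt cb.continuousAt (by linarith)
    filter_upwards [nhdsWithin_le_nhds e1, nhdsWithin_le_nhds e2, self_mem_nhdsWithin]
      with y f1 f2 hy
    obtain ⟨⟨t1, t2⟩, t3⟩ := sp y hy
    refine h4.trans ?_
    by_contra hn
    push Not at hn
    have := (an y).antitoneOn ⟨t1.le, t2.le⟩ ⟨t1.le.trans hn, f2.le⟩ hn
    linarith
  · obtain ⟨x, h1, h2⟩ := exists_between (lt_min hc' s2)
    have h3 : x < b z := lt_of_lt_of_le h2 (min_le_right _ _)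
    have h4 : x < c := lt_of_lt_of_le h2 (min_le_left _ _)
    have h5 : F z x < 0 := by
      rw [← s3]
      exact an z ⟨s1.le, s2.le⟩ ⟨by linarith, h3.le⟩ h1
    have e1 : ∀ᶠ y in 𝓝 z, F y x < 0 := (c2 x).continuousAt.eventually_lt continuousAt_const h5
    have e2 : ∀ᶠ y in 𝓝 z, a y < x :=
      ca.continuousAt.eventually_lt continuousAt_const (by linarith)
    filter_upwards [nhdsWithin_le_nhds e1, nhdsWithin_le_nhds e2, self_mem_nhdsWithin]
      with y f1 f2 hy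
    obtain ⟨⟨t1, t2⟩, t3⟩ := sp y hy
    refine lt_trans ?_ h4
    by_contra hn
    push Not at hn
    have := (an y).antitoneOn ⟨f2.le, hn.trans t2.le⟩ ⟨t1.le, t2.le⟩ hn
    linarith

variable {h : ℝ → ℝ}

theorem adm (H : SmoothTable h) : Sm.Adm h where
  an := H.1
  per := H.2.1
  nonneg := fun x => (H.2.2 x).le
  dense := fun a b hab => ⟨(a + b) / 2, ⟨by linarith, by linarith⟩, H.2.2 _⟩

theorem K_ends (H : SmoothTable h) (φ : ℝ) : K h φ (φ + π) = K h φ (φ - π) := by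
  have e : h (φ + π) = h (φ - π) := by rw [← H.2.1 (φ - π)]; congr 1; ring
  simp [K, e]

theorem K_left (h : ℝ → ℝ) (φ x : ℝ) : K h (φ + 2 * π) x = K h φ x := by
  unfold K
  rw [show x - (φ + 2 * π) = x - φ - 2 * π by ring, cos_sub_two_pi, sin_sub_two_pi]

/-- the strip -/
def Str : Set (ℝ × ℝ) := {z | z.1 < z.2 ∧ z.2 < z.1 + 2 * π}

theorem isOpen_Str : IsOpen Str :=
  (isOpen_lt continuous_fst continuous_snd).inter (isOpen_lt continuous_snd (by fun_prop))

/-- the next impact point -/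
def nx (h : ℝ → ℝ) (z : ℝ × ℝ) : ℝ :=
  zer (fun x => K h z.2 x - K h z.2 ((z.1 + z.2) / 2)) z.2 (z.2 + π)

/-- the previous impact point -/
def pv (h : ℝ → ℝ) (z : ℝ × ℝ) : ℝ :=
  zer (fun x => K h z.1 ((z.1 + z.2) / 2) - K h z.1 x) (z.1 - π) z.1

/-- the billiard map -/
def Tm (h : ℝ → ℝ) (z : ℝ × ℝ) : ℝ × ℝ := (z.2, 2 * nx h z - z.2)

/-- the inverse of the billiard map -/
def Ti (h : ℝ → ℝ) (z : ℝ × ℝ) : ℝ × ℝ := (2 * pv h z - z.1, z.1)

theorem nx_a (H : SmoothTable h) {z : ℝ × ℝ} (hz : z ∈ Str) :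
    0 < K h z.2 z.2 - K h z.2 ((z.1 + z.2) / 2) := by
  have := Sm.K_strictMono (adm H) z.2 (a := (z.1 + z.2) / 2) (b := z.2)
    ⟨by linarith [hz.2], by linarith [hz.1]⟩ ⟨by linarith [pi_pos], le_rfl⟩ (by linarith [hz.1])
  linarith

theorem nx_b (H : SmoothTable h) {z : ℝ × ℝ} (hz : z ∈ Str) :
    K h z.2 (z.2 + π) - K h z.2 ((z.1 + z.2) / 2) < 0 := by
  have := Sm.K_strictMono (adm H) z.2 (a := z.2 - π) (b := (z.1 + z.2) / 2)
    ⟨le_rfl, by linarith [pi_pos]⟩ ⟨by linarith [hz.2], by linarith [hz.1]⟩ (by linarith [hz.2])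
  rw [K_ends H]
  linarith

theorem pv_a (H : SmoothTable h) {z : ℝ × ℝ} (hz : z ∈ Str) :
    0 < K h z.1 ((z.1 + z.2) / 2) - K h z.1 (z.1 - π) := by
  have := Sm.K_strictAnti (adm H) z.1 (a := (z.1 + z.2) / 2) (b := z.1 + π)
    ⟨by linarith [hz.1], by linarith [hz.2]⟩ ⟨by linarith [pi_pos], le_rfl⟩ (by linarith [hz.2])
  rw [← K_ends H]
  linarith

theorem pv_b (H : SmoothTable h) {z : ℝ × ℝ} (hz : z ∈ Str) :
    K h z.1 ((z.1 + z.2) / 2) - K h z.1 z.1 < 0 := by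
  have := Sm.K_strictAnti (adm H) z.1 (a := z.1) (b := (z.1 + z.2) / 2)
    ⟨le_rfl, by linarith [pi_pos]⟩ ⟨by linarith [hz.1], by linarith [hz.2]⟩ (by linarith [hz.1])
  linarith

theorem cK (H : SmoothTable h) {X : Type*} [TopologicalSpace X] {a b : X → ℝ} (ha : Continuous a)
    (hb : Continuous b) : Continuous fun x => K h (a x) (b x) :=
  (Sm.continuous_K H.1).comp (ha.prodMk hb)

theorem nx_spec (H : SmoothTable h) {z : ℝ × ℝ} (hz : z ∈ Str) :
    nx h z ∈ Ioo z.2 (z.2 + π) ∧ K h z.2 (nx h z) = K h z.2 ((z.1 + z.2) / 2) := by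
  have := zer_spec (F := fun x => K h z.2 x - K h z.2 ((z.1 + z.2) / 2))
    ((cK H continuous_const continuous_id).sub continuous_const) (by linarith [pi_pos])
    (nx_a H hz) (nx_b H hz)
  exact ⟨this.1, sub_eq_zero.1 this.2⟩

theorem pv_spec (H : SmoothTable h) {z : ℝ × ℝ} (hz : z ∈ Str) :
    pv h z ∈ Ioo (z.1 - π) z.1 ∧ K h z.1 (pv h z) = K h z.1 ((z.1 + z.2) / 2) := by
  have := zer_spec (F := fun x => K h z.1 ((z.1 + z.2) / 2) - K h z.1 x)
    (continuous_const.sub (cK H continuous_const continuous_id)) (by linarith [pi_pos])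
    (pv_a H hz) (pv_b H hz)
  exact ⟨this.1, (sub_eq_zero.1 this.2).symm⟩

theorem nx_eq (H : SmoothTable h) {z : ℝ × ℝ} (hz : z ∈ Str) {x : ℝ} (hx : x ∈ Ioo z.2 (z.2 + π))
    (e : K h z.2 x = K h z.2 ((z.1 + z.2) / 2)) : nx h z = x :=
  Sm.next_unique (adm H) (Ioo_subset_Icc_self (nx_spec H hz).1) (Ioo_subset_Icc_self hx)
    ((nx_spec H hz).2.trans e.symm)

theorem pv_eq (H : SmoothTable h) {z : ℝ × ℝ} (hz : z ∈ Str) {x : ℝ} (hx : x ∈ Ioo (z.1 - π) z.1)
    (e : K h z.1 x = K h z.1 ((z.1 + z.2) / 2)) : pv h z = x :=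
  Sm.prev_unique (adm H) (Ioo_subset_Icc_self (pv_spec H hz).1) (Ioo_subset_Icc_self hx)
    ((pv_spec H hz).2.trans e.symm)

theorem Tm_mem (H : SmoothTable h) {z : ℝ × ℝ} (hz : z ∈ Str) : Tm h z ∈ Str := by
  obtain ⟨⟨a, b⟩, -⟩ := nx_spec H hz
  exact ⟨by simp only [Tm]; linarith, by simp only [Tm]; linarith⟩

theorem Ti_mem (H : SmoothTable h) {z : ℝ × ℝ} (hz : z ∈ Str) : Ti h z ∈ Str := by
  obtain ⟨⟨a, b⟩, -⟩ := pv_spec H hz
  exact ⟨by simp only [Ti]; linarith, by simp only [Ti]; linarith⟩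

theorem Ti_Tm (H : SmoothTable h) {z : ℝ × ℝ} (hz : z ∈ Str) : Ti h (Tm h z) = z := by
  have e : pv h (Tm h z) = (z.1 + z.2) / 2 := by
    refine pv_eq H (Tm_mem H hz) ⟨by simp only [Tm]; linarith [hz.2], by simp only [Tm]; linarith [hz.1]⟩ ?_
    simp only [Tm]
    rw [show (z.2 + (2 * nx h z - z.2)) / 2 = nx h z by ring, (nx_spec H hz).2]
  refine Prod.ext ?_ rfl
  show 2 * pv h (Tm h z) - z.2 = z.1
  rw [e]; ring

theorem Tm_Ti (H : SmoothTable h) {z : ℝ × ℝ} (hz : z ∈ Str) : Tm h (Ti h z) = z := by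
  have e : nx h (Ti h z) = (z.1 + z.2) / 2 := by
    refine nx_eq H (Ti_mem H hz) ⟨by simp only [Ti]; linarith [hz.1], by simp only [Ti]; linarith [hz.2]⟩ ?_
    simp only [Ti]
    rw [show (2 * pv h z - z.1 + z.1) / 2 = pv h z by ring, (pv_spec H hz).2]
  refine Prod.ext rfl ?_
  show 2 * nx h (Ti h z) - z.1 = z.2
  rw [e]; ring

theorem Tm_inj (H : SmoothTable h) : InjOn (Tm h) Str := fun x hx y hy e => by
  rw [← Ti_Tm H hx, e, Ti_Tm H hy]

theorem Ti_inj (H : SmoothTable h) : InjOn (Ti h) Str := fun x hx y hy e => by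
  rw [← Tm_Ti H hx, e, Tm_Ti H hy]

theorem Tm_cont (H : SmoothTable h) : ContinuousOn (Tm h) Str := by
  have c : Continuous fun p : (ℝ × ℝ) × ℝ => K h p.1.2 p.2 - K h p.1.2 ((p.1.1 + p.1.2) / 2) :=
    (cK H (by fun_prop) (by fun_prop)).sub (cK H (by fun_prop) (by fun_prop))
  have an : ∀ z : ℝ × ℝ, StrictAntiOn (fun x => K h z.2 x - K h z.2 ((z.1 + z.2) / 2))
      (Icc z.2 (z.2 + π)) := fun z x hx y hy hxy => by
    have := Sm.K_strictAnti (adm H) z.2 hx hy hxy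
    simp only at this ⊢
    linarith
  have t := @zer_cont (ℝ × ℝ) _ (fun z x => K h z.2 x - K h z.2 ((z.1 + z.2) / 2)) (fun z => z.2)
    (fun z => z.2 + π) Str c (by fun_prop) (by fun_prop) (fun z => by linarith [pi_pos]) an
    (fun z hz => nx_a H hz) (fun z hz => nx_b H hz)
  have : ContinuousOn (nx h) Str := t
  exact continuousOn_snd.prodMk ((continuousOn_const.mul this).sub continuousOn_snd)

theorem Ti_cont (H : SmoothTable h) : ContinuousOn (Ti h) Str := by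
  have c : Continuous fun p : (ℝ × ℝ) × ℝ => K h p.1.1 ((p.1.1 + p.1.2) / 2) - K h p.1.1 p.2 :=
    (cK H (by fun_prop) (by fun_prop)).sub (cK H (by fun_prop) (by fun_prop))
  have an : ∀ z : ℝ × ℝ, StrictAntiOn (fun x => K h z.1 ((z.1 + z.2) / 2) - K h z.1 x)
      (Icc (z.1 - π) z.1) := fun z x hx y hy hxy => by
    have := Sm.K_strictMono (adm H) z.1 hx hy hxy
    simp only at this ⊢
    linarith
  have t := @zer_cont (ℝ × ℝ) _ (fun z x => K h z.1 ((z.1 + z.2) / 2) - K h z.1 x)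
    (fun z => z.1 - π) (fun z => z.1) Str c (by fun_prop) (by fun_prop)
    (fun z => by linarith [pi_pos]) an (fun z hz => pv_a H hz) (fun z hz => pv_b H hz)
  have : ContinuousOn (pv h) Str := t
  exact ((continuousOn_const.mul this).sub continuousOn_fst).prodMk continuousOn_fst

/-- twist: on a horizontal line the second coordinate of the image decreases -/
theorem Tm_anti (H : SmoothTable h) {z z' : ℝ × ℝ} (hz : z ∈ Str) (hz' : z' ∈ Str) (e : z.2 = z'.2)
    (l : z.1 < z'.1) : (Tm h z').2 < (Tm h z).2 := by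
  obtain ⟨a, b⟩ := nx_spec H hz
  obtain ⟨a', b'⟩ := nx_spec H hz'
  rw [← e] at a' b'
  have h1 := Sm.K_strictMono (adm H) z.2 (a := (z.1 + z.2) / 2) (b := (z'.1 + z.2) / 2)
    ⟨by linarith [hz.2], by linarith [hz.1]⟩ ⟨by linarith [hz'.2], by linarith [hz'.1]⟩ (by linarith)
  have h2 : nx h z' < nx h z := by
    refine ((Sm.K_strictAnti (adm H) z.2).lt_iff_gt (Ioo_subset_Icc_self a) (Ioo_subset_Icc_self a')).1 ?_
    simp only at h1 ⊢
    linarith
  simp only [Tm]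
  linarith

/-- twist for the inverse: on a vertical line the first coordinate of the image decreases -/
theorem Ti_anti (H : SmoothTable h) {z z' : ℝ × ℝ} (hz : z ∈ Str) (hz' : z' ∈ Str) (e : z.1 = z'.1)
    (l : z.2 < z'.2) : (Ti h z').1 < (Ti h z).1 := by
  obtain ⟨a, b⟩ := pv_spec H hz
  obtain ⟨a', b'⟩ := pv_spec H hz'
  rw [← e] at a' b'
  have h1 := Sm.K_strictAnti (adm H) z.1 (a := (z.1 + z.2) / 2) (b := (z.1 + z'.2) / 2)
    ⟨by linarith [hz.1], by linarith [hz.2]⟩ ⟨by linarith [hz'.1], by linarith [hz'.2]⟩ (by linarith)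
  have h2 : pv h z' < pv h z := by
    refine ((Sm.K_strictMono (adm H) z.1).lt_iff_lt (Ioo_subset_Icc_self a') (Ioo_subset_Icc_self a)).1 ?_
    simp only at h1 ⊢
    linarith
  simp only [Ti]
  linarith

/-- the deck translation -/
def ee : ℝ × ℝ := (2 * π, 2 * π)

theorem add_mem {z : ℝ × ℝ} : z + ee ∈ Str ↔ z ∈ Str := by
  simp only [Str, ee, mem_setOf_eq, Prod.fst_add, Prod.snd_add]
  constructor <;> rintro ⟨a, b⟩ <;> constructor <;> linarith

theorem Tm_per (H : SmoothTable h) {z : ℝ × ℝ} (hz : z ∈ Str) : Tm h (z + ee) = Tm h z + ee := by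
  obtain ⟨⟨a, b⟩, c⟩ := nx_spec H hz
  have e : nx h (z + ee) = nx h z + 2 * π := by
    refine nx_eq H (add_mem.2 hz) ⟨by simp only [ee, Prod.snd_add]; linarith,
      by simp only [ee, Prod.snd_add]; linarith⟩ ?_
    simp only [ee, Prod.snd_add, Prod.fst_add]
    rw [show (z.1 + 2 * π + (z.2 + 2 * π)) / 2 = (z.1 + z.2) / 2 + 2 * π by ring, K_per H.2.1,
      K_per H.2.1, c]
  refine Prod.ext rfl ?_
  show 2 * nx h (z + ee) - (z.2 + 2 * π) = 2 * nx h z - z.2 + 2 * π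
  rw [e]; ring

theorem Ti_per (H : SmoothTable h) {z : ℝ × ℝ} (hz : z ∈ Str) : Ti h (z + ee) = Ti h z + ee := by
  have := Tm_per H (Ti_mem H hz)
  rw [Tm_Ti H hz] at this
  rw [← this, Ti_Tm H (add_mem.2 (Ti_mem H hz))]

theorem step_of_K' (H : SmoothTable h) {ψ δ ψ' δ' : ℝ} (h1 : 0 < δ) (h2 : δ < π) (h3 : 0 < δ')
    (h4 : δ' < π) (hψ : ψ' = ψ + δ + δ') (hK : K h (ψ + δ) ψ = K h (ψ + δ) ψ') :
    Step h ψ δ ψ' δ' := by
  refine ⟨h1, h2, h3, h4, hψ, T h (ψ + δ) ψ' - T h (ψ + δ) ψ, ?_, ?_⟩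
  · have r : ∀ x, K h ψ x = cos δ * K h (ψ + δ) x - sin δ * T h (ψ + δ) x := fun x => by
      unfold K T
      rw [show x - ψ = (x - (ψ + δ)) + δ by ring, cos_add (x - (ψ + δ)), sin_add (x - (ψ + δ))]
      ring
    have l : K h ψ ψ' < K h ψ ψ := by
      rcases le_total ψ' (ψ + π) with c | c
      · exact Sm.K_strictAnti (adm H) ψ ⟨le_rfl, by linarith [pi_pos]⟩ ⟨by linarith, c⟩ (by linarith)
      · have := Sm.K_strictMono (adm H) (ψ + 2 * π) (a := ψ') (b := ψ + 2 * π)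
          ⟨by linarith, by linarith⟩ ⟨by linarith [pi_pos], le_rfl⟩ (by linarith)
        simp only at this
        rwa [K_per H.2.1, K_left] at this
    rw [r, r, hK] at l
    have s := sin_pos_of_pos_of_lt_pi h1 h2
    by_contra hn
    push Not at hn
    nlinarith
  · rw [bdry_eq h (ψ + δ) ψ', bdry_eq h (ψ + δ) ψ, hK]
    push_cast
    ring

/-- one bounce is one step of the map -/
theorem step_iff (H : SmoothTable h) {ψ δ ψ' δ' : ℝ} :
    Step h ψ δ ψ' δ' ↔ (ψ - δ, ψ + δ) ∈ Str ∧ Tm h (ψ - δ, ψ + δ) = (ψ' - δ', ψ' + δ') := by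
  constructor
  · intro s
    have k := s.K_eq
    obtain ⟨a, b, c, d, e, -⟩ := s
    have m : (ψ - δ, ψ + δ) ∈ Str := ⟨by simp only; linarith, by simp only; linarith⟩
    have n : nx h (ψ - δ, ψ + δ) = ψ' := nx_eq H m ⟨by simp only; linarith, by simp only; linarith⟩
      (by simp only; rw [← k]; congr 1; ring)
    refine ⟨m, Prod.ext ?_ ?_⟩ <;> simp only [Tm, n] <;> linarith
  · rintro ⟨m, e⟩
    obtain ⟨⟨a, b⟩, c⟩ := nx_spec H m
    have e1 := congrArg Prod.fst e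
    have e2 := congrArg Prod.snd e
    have m1 := m.1
    have m2 := m.2
    simp only [Tm] at e1 e2 a b c m1 m2
    have n : nx h (ψ - δ, ψ + δ) = ψ' := by linarith
    rw [n] at a b c
    refine step_of_K' H (by linarith) (by linarith) (by linarith) (by linarith) (by linarith) ?_
    rw [c]; congr 1; ring

end Vale.Agent.P097B.Bil
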