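import Vale.Agent.P097B.BilA
import Vale.Agent.P097G.Tw

/-!
# P097: the billiard map is an area preserving twist map
-/

set_option linter.all false

noncomputable section

namespace Vale.Agent.P097B.Bil

open Real Set Filter Topology MeasureTheory Vale.Agent.P097 Vale.Agent.P097G

variable {h : ℝ → ℝ}

/-- a linear map of the plane -/
def mat (a b c d : ℝ) : ℝ × ℝ →L[ℝ] ℝ × ℝ :=
  (Matrix.toLin (.finTwoProd ℝ) (.finTwoProd ℝ) !![a, b; c, d]).toContinuousLinearMap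

theorem mat_det (a b c d : ℝ) : (mat a b c d).det = a * d - b * c := by
  simp only [mat, LinearMap.det_toContinuousLinearMap, LinearMap.det_toLin, Matrix.det_fin_two_of]

theorem fd_K (H : SmoothTable h) {φ ψ : ℝ × ℝ → ℝ} {φ' ψ' : ℝ × ℝ →L[ℝ] ℝ} {z : ℝ × ℝ}
    (hφ : HasFDerivAt φ φ' z) (hψ : HasFDerivAt ψ ψ' z) :
    HasFDerivAt (fun x => K h (φ x) (ψ x))
      (T h (φ z) (ψ z) • φ' - (rad h (ψ z) * sin (ψ z - φ z)) • ψ') z := by
  have A : Sm.An h := H.1
  have h1 := (A.hasDerivAt (ψ z)).comp_hasFDerivAt z hψ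
  have h2 := (A.deriv.hasDerivAt (ψ z)).comp_hasFDerivAt z hψ
  have h3 := hψ.sub hφ
  have h4 := (h1.mul h3.cos).sub (h2.mul h3.sin)
  refine HasFDerivAt.congr_fderiv h4 ?_
  refine ContinuousLinearMap.ext fun y => ?_
  simp [T, rad]
  ring

theorem fd_mid (z : ℝ × ℝ) : HasFDerivAt (fun x : ℝ × ℝ => (x.1 + x.2) / 2)
    ((1 / 2 : ℝ) • (ContinuousLinearMap.fst ℝ ℝ ℝ + ContinuousLinearMap.snd ℝ ℝ ℝ)) z := by
  have := ((hasFDerivAt_fst (𝕜 := ℝ) (p := z)).add (hasFDerivAt_snd (𝕜 := ℝ) (p := z))).const_smul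
    (1 / 2 : ℝ)
  refine this.congr_of_eventuallyEq (Eventually.of_forall fun x => ?_)
  simp
  ring

/-- the outgoing line -/
def Po (h : ℝ → ℝ) (z : ℝ × ℝ) : ℝ × ℝ := (z.2, K h z.2 ((z.1 + z.2) / 2))

/-- the incoming line -/
def Pi' (h : ℝ → ℝ) (z : ℝ × ℝ) : ℝ × ℝ := (z.1, K h z.1 ((z.1 + z.2) / 2))

/-- the density of the invariant measure -/
def wt (h : ℝ → ℝ) (z : ℝ × ℝ) : ℝ := rad h ((z.1 + z.2) / 2) * sin ((z.2 - z.1) / 2) / 2

theorem fd_Po (H : SmoothTable h) (z : ℝ × ℝ) :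
    HasFDerivAt (Po h) (mat 0 1 (wt h z) (T h z.2 ((z.1 + z.2) / 2) + wt h z)) z := by
  have := (hasFDerivAt_snd (𝕜 := ℝ) (p := z)).prodMk (fd_K H hasFDerivAt_snd (fd_mid z))
  refine HasFDerivAt.congr_fderiv this ?_
  unfold mat
  rw [Matrix.toLin_finTwoProd_toContinuousLinearMap]
  refine ContinuousLinearMap.ext fun y => Prod.ext (by simp) ?_
  have e : sin ((z.1 + z.2) / 2 - z.2) = -sin ((z.2 - z.1) / 2) := by
    rw [← sin_neg]; congr 1; ring
  simp [wt, e]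
  ring

theorem fd_Pi (H : SmoothTable h) (z : ℝ × ℝ) :
    HasFDerivAt (Pi' h) (mat 1 0 (T h z.1 ((z.1 + z.2) / 2) - wt h z) (-wt h z)) z := by
  have := (hasFDerivAt_fst (𝕜 := ℝ) (p := z)).prodMk (fd_K H hasFDerivAt_fst (fd_mid z))
  refine HasFDerivAt.congr_fderiv this ?_
  unfold mat
  rw [Matrix.toLin_finTwoProd_toContinuousLinearMap]
  refine ContinuousLinearMap.ext fun y => Prod.ext (by simp) ?_
  have e : sin ((z.1 + z.2) / 2 - z.1) = sin ((z.2 - z.1) / 2) := by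
    congr 1; ring
  simp [wt, e]
  ring

theorem Pi_inj (H : SmoothTable h) : InjOn (Pi' h) Str := fun x hx y hy e => by
  have e1 : x.1 = y.1 := (congrArg Prod.fst e :)
  have e2 : K h x.1 ((x.1 + x.2) / 2) = K h y.1 ((y.1 + y.2) / 2) := congrArg Prod.snd e
  rw [← e1] at e2
  have := Sm.next_unique (adm H) (φ := x.1) ⟨by linarith [hx.1], by linarith [hx.2]⟩
    ⟨by linarith [hy.1], by linarith [hy.2]⟩ e2
  exact Prod.ext e1 (by linarith)

theorem Pi_Tm (H : SmoothTable h) {z : ℝ × ℝ} (hz : z ∈ Str) : Pi' h (Tm h z) = Po h z := by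
  refine Prod.ext rfl ?_
  show K h z.2 ((z.2 + (2 * nx h z - z.2)) / 2) = K h z.2 ((z.1 + z.2) / 2)
  rw [show (z.2 + (2 * nx h z - z.2)) / 2 = nx h z by ring, (nx_spec H hz).2]

theorem Po_inj (H : SmoothTable h) : InjOn (Po h) Str := fun x hx y hy e => by
  rw [← Pi_Tm H hx, ← Pi_Tm H hy] at e
  exact Tm_inj H hx hy (Pi_inj H (Tm_mem H hx) (Tm_mem H hy) e)

/-- the invariant measure -/
def mu (h : ℝ → ℝ) : Measure (ℝ × ℝ) := volume.withDensity fun z => ENNReal.ofReal |wt h z|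

theorem mu_Pi (H : SmoothTable h) {A : Set (ℝ × ℝ)} (s : A ⊆ Str) (m : MeasurableSet A) :
    mu h A = volume (Pi' h '' A) := by
  rw [mu, withDensity_apply _ m, ← lintegral_abs_det_fderiv_eq_addHaar_image volume m
    (fun z _ => (fd_Pi H z).hasFDerivWithinAt) ((Pi_inj H).mono s)]
  simp [mat_det]

theorem mu_Po (H : SmoothTable h) {A : Set (ℝ × ℝ)} (s : A ⊆ Str) (m : MeasurableSet A) :
    mu h A = volume (Po h '' A) := by
  rw [mu, withDensity_apply _ m, ← lintegral_abs_det_fderiv_eq_addHaar_image volume m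
    (fun z _ => (fd_Po H z).hasFDerivWithinAt) ((Po_inj H).mono s)]
  simp [mat_det]

theorem mu_Tm (H : SmoothTable h) {A : Set (ℝ × ℝ)} (s : A ⊆ Str) (m : MeasurableSet A) :
    mu h (Tm h '' A) = mu h A := by
  rw [mu_Po H s m, mu_Pi H (image_subset_iff.2 fun z hz => Tm_mem H (s hz))
    (m.image_of_continuousOn_injOn ((Tm_cont H).mono s) ((Tm_inj H).mono s)), image_image]
  congr 1
  exact image_congr fun z hz => Pi_Tm H (s hz)

theorem mu_tr (H : SmoothTable h) {A : Set (ℝ × ℝ)} (s : A ⊆ Str) (m : MeasurableSet A) :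
    mu h ((fun z => z + ee) '' A) = mu h A := by
  rw [mu_Pi H s m, mu_Pi H (image_subset_iff.2 fun z hz => add_mem.2 (s hz))
    (m.image_of_continuousOn_injOn (by fun_prop) (add_left_injective ee).injOn), image_image]
  have e : ∀ z : ℝ × ℝ, Pi' h (z + ee) = Pi' h z + (2 * π, 0) := fun z => by
    refine Prod.ext rfl ?_
    show K h (z.1 + 2 * π) ((z.1 + 2 * π + (z.2 + 2 * π)) / 2) = K h z.1 ((z.1 + z.2) / 2) + 0
    rw [show (z.1 + 2 * π + (z.2 + 2 * π)) / 2 = (z.1 + z.2) / 2 + 2 * π by ring, K_per H.2.1,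
      add_zero]
  simp only [e]
  rw [← image_image (fun y : ℝ × ℝ => y + (2 * π, 0)) (Pi' h), image_add_right,
    measure_preimage_add_right]

theorem wt_cont (H : SmoothTable h) : Continuous (wt h) := by
  have A : Sm.An h := H.1
  have h1 := A.continuous
  have h2 := A.deriv.deriv.continuous
  unfold wt rad
  fun_prop

theorem wt_pos (H : SmoothTable h) {z : ℝ × ℝ} (hz : z ∈ Str) : 0 < wt h z :=
  div_pos (mul_pos (H.2.2 _)
    (sin_pos_of_pos_of_lt_pi (by linarith [hz.1]) (by linarith [hz.2]))) two_pos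

theorem mu_fin (H : SmoothTable h) {A : Set (ℝ × ℝ)} (c : IsCompact A) : mu h A ≠ ⊤ := by
  have : IsLocallyFiniteMeasure (mu h) :=
    IsLocallyFiniteMeasure.withDensity_ofReal (wt_cont H).abs
  exact c.measure_lt_top.ne

theorem mu_pos (H : SmoothTable h) {A : Set (ℝ × ℝ)} (s : A ⊆ Str) (o : IsOpen A)
    (n : A.Nonempty) : mu h A ≠ 0 := by
  rw [mu, withDensity_apply _ o.measurableSet]
  refine ((setLIntegral_pos_iff (wt_cont H).abs.measurable.ennreal_ofReal).2 ?_).ne'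
  refine (o.measure_pos volume n).trans_le (measure_mono fun z hz => ⟨?_, hz⟩)
  exact (ENNReal.ofReal_pos.2 (abs_pos.2 (wt_pos H (s hz)).ne')).ne'

/-- the plane as a product -/
def pr (z : ℂ) : ℝ × ℝ := (z.re, z.im)

/-- the billiard map on the complex strip -/
def Tc (h : ℝ → ℝ) (z : ℂ) : ℂ := ⟨(Tm h (pr z)).1, (Tm h (pr z)).2⟩

/-- the invariant measure on the complex strip -/
def muc (h : ℝ → ℝ) : Measure ℂ := (mu h).map Complex.measurableEquivRealProd.symm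

theorem pr_inj : Function.Injective pr := fun x y e =>
  Complex.ext (congrArg Prod.fst e) (congrArg Prod.snd e)

theorem pr_cont : Continuous pr := Complex.continuous_re.prodMk Complex.continuous_im

theorem pr_mem {z : ℂ} : z ∈ St (2 * π) ↔ pr z ∈ Str := by
  simp only [St, Str, pr, mem_setOf_eq]
  constructor <;> rintro ⟨a, b⟩ <;> constructor <;> linarith

theorem muc_apply (X : Set ℂ) : muc h X = mu h (pr '' X) := by
  rw [muc, MeasurableEquiv.map_apply]
  congr 1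
  ext y
  exact ⟨fun hy => ⟨_, hy, rfl⟩, fun ⟨z, hz, e⟩ => by rw [← e]; exact hz⟩

theorem pr_add (z : ℂ) : pr (z + (((2 * π : ℝ) : ℂ) + ((2 * π : ℝ) : ℂ) * Complex.I)) = pr z + ee := by
  simp only [pr, ee, Complex.add_re, Complex.add_im, Complex.mul_re, Complex.mul_im,
    Complex.ofReal_re, Complex.ofReal_im, Complex.I_re, Complex.I_im, Prod.mk_add_mk]
  congr 1 <;> ring

theorem twist (H : SmoothTable h) : Twist (2 * π) (Tc h) (muc h) := by
  have s : ∀ {X : Set ℂ}, X ⊆ St (2 * π) → pr '' X ⊆ Str := fun a =>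
    image_subset_iff.2 fun z hz => pr_mem.1 (a hz)
  have m : ∀ {X : Set ℂ}, MeasurableSet X → MeasurableSet (pr '' X) := fun a =>
    a.image_of_continuousOn_injOn pr_cont.continuousOn pr_inj.injOn
  refine ⟨⟨fun z hz => pr_mem.2 (Tm_mem H (pr_mem.1 hz)), fun x hx y hy e => ?_, fun y hy => ?_⟩, ?_,
    fun z _ => rfl, fun z hz w hw e l => Tm_anti H (pr_mem.1 hz) (pr_mem.1 hw) e l, fun z hz => ?_,
    fun X a b => ?_, fun X a b => ?_, fun X a c => ?_, fun U a o n => ?_⟩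
  · exact pr_inj (Tm_inj H (pr_mem.1 hx) (pr_mem.1 hy) (congrArg pr e))
  · exact ⟨⟨(Ti h (pr y)).1, (Ti h (pr y)).2⟩, pr_mem.2 (Ti_mem H (pr_mem.1 hy)),
      pr_inj (Tm_Ti H (pr_mem.1 hy))⟩
  · exact Complex.equivRealProdCLM.symm.continuous.comp_continuousOn
      ((Tm_cont H).comp pr_cont.continuousOn fun z hz => pr_mem.1 hz)
  · apply pr_inj
    rw [pr_add]
    have e : ∀ y, pr (Tc h y) = Tm h (pr y) := fun _ => rfl
    rw [e, e, pr_add, Tm_per H (pr_mem.1 hz)]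
  · rw [muc_apply, muc_apply, ← mu_Tm H (s a) (m b), image_image, image_image]
    rfl
  · rw [muc_apply, muc_apply, ← mu_tr H (s a) (m b), image_image, image_image]
    simp only [pr_add]
  · rw [muc_apply]
    exact mu_fin H (c.image pr_cont)
  · rw [muc_apply]
    exact mu_pos H (s a) (Complex.equivRealProdCLM.toHomeomorph.isOpenMap U o) (n.image _)

/-- the billiard map of a smooth table is an area preserving twist map -/
theorem bil (H : SmoothTable h) : ∃ (T : ℂ → ℂ) (μ : Measure ℂ), Twist (2 * π) T μ ∧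
    ∀ ψ δ ψ' δ' : ℝ, Step h ψ δ ψ' δ' ↔
      ((⟨ψ - δ, ψ + δ⟩ : ℂ) ∈ St (2 * π) ∧ T ⟨ψ - δ, ψ + δ⟩ = ⟨ψ' - δ', ψ' + δ'⟩) := by
  refine ⟨Tc h, muc h, twist H, fun ψ δ ψ' δ' => ?_⟩
  rw [step_iff H, pr_mem, ← pr_inj.eq_iff]
  rfl

end Vale.Agent.P097B.Bil
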