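import Mathlib
import Vale.Agent.P097.Defs

/-! # P097B : invariant rotational curves of the phase annulus -/

namespace Vale.Agent.P097B

open Real Vale.Agent.P097

/-- The open phase annulus: the normal angle of the impact point modulo `2π`, and the angle in
`(0, π)` of the outgoing velocity with the positive tangent. -/
abbrev Phase : Type := AddCircle (2 * π) × Set.Ioo (0 : ℝ) π

/-- `y` is the image of `x` under the billiard map. -/
def Bounce (h : ℝ → ℝ) (x y : Phase) : Prop :=
  ∃ ψ ψ' : ℝ, (ψ : AddCircle (2 * π)) = x.1 ∧ (ψ' : AddCircle (2 * π)) = y.1 ∧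
    Step h ψ x.2 ψ' y.2

/-- `c` is a simple closed curve, not contractible in the phase annulus, which the billiard map
sends into itself. -/
def RotCurve (h : ℝ → ℝ) (c : C(AddCircle (1 : ℝ), Phase)) : Prop :=
  Function.Injective c ∧ ¬ c.Nullhomotopic ∧ ∀ t, ∃ s, Bounce h (c t) (c s)

/-- Every phase point at angle less than `η` lies on an invariant rotational curve. -/
def Filled (h : ℝ → ℝ) (η : ℝ) : Prop :=
  ∀ x : Phase, (x.2 : ℝ) < η → ∃ c, RotCurve h c ∧ x ∈ Set.range c

end Vale.Agent.P097B
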