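import Vale.Agent.P097B.Tw

/-! # P097B : an invariant simple curve is a graph -/

set_option linter.all false

namespace Vale.Agent.P097B

open Real Set Filter Topology

variable {F G : ℂ → ℂ} {p : ℝ} {γ : ℝ → ℂ} {g : ℝ → ℝ}

theorem St.side (S : St F G p γ g) : ∃ U : Set ℂ, IsOpen U ∧ IsPreconnected U ∧
    U ⊆ XX \ range γ ∧ (∀ z : ℂ, z + p ∈ U ↔ z ∈ U) ∧ MapsTo F U U ∧ MapsTo G U U ∧
    (∃ w ∈ XX, ∀ t, w.im < (γ t).im) ∧
    ∀ w ∈ XX, (∀ t, (γ t).re = w.re → w.im < (γ t).im) → w ∈ U := by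
  obtain ⟨⟨a, ha⟩, -⟩ := S.cv.minmax
  set m := (γ a).im with hm
  have m0 : 0 < m := (S.hx a).1
  have m1 : m < π := (S.hx a).2
  let B : Set ℂ := {z | 0 < z.im} ∩ {z | z.im < m}
  have BX : B ⊆ XX \ range γ := by
    rintro z ⟨h1, h2⟩
    refine ⟨⟨h1, lt_trans h2 m1⟩, ?_⟩
    rintro ⟨t, rfl⟩
    exact absurd (ha t) (not_le.2 h2)
  have cB : IsPreconnected B :=
    ((convex_halfSpace_im_gt 0).inter (convex_halfSpace_im_lt m)).isPreconnected
  let b : ℂ := ⟨0, m / 2⟩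
  have bB : b ∈ B := ⟨by show 0 < m / 2; linarith, by show m / 2 < m; linarith⟩
  let U := connectedComponentIn (XX \ range γ) b
  have BU : B ⊆ U := cB.subset_connectedComponentIn bB BX
  have UX : U ⊆ XX \ range γ := connectedComponentIn_subset _ _
  have sub : ∀ T : Set ℂ, IsPreconnected T → T ⊆ XX \ range γ → ∀ z ∈ T, z ∈ B → T ⊆ U := by
    intro T h1 h2 z h3 h4
    have := h1.subset_connectedComponentIn h3 h2
    rwa [← connectedComponentIn_eq (BU h4)] at this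
  have mp : ∀ H : ℂ → ℂ, ContinuousOn H XX → MapsTo H (XX \ range γ) (XX \ range γ) →
      ∀ z ∈ B, H z ∈ B → MapsTo H U U := by
    intro H h1 h2 z h3 h4
    exact mapsTo_iff_image_subset.2 (sub _
      (isPreconnected_connectedComponentIn.image H (h1.mono fun w hw => (UX hw).1))
      (by rintro _ ⟨w, hw, rfl⟩; exact h2 (UX hw)) _ ⟨z, BU h3, rfl⟩ h4)
  obtain ⟨z, z0, z1, z2⟩ := S.tw.low m m0
  have sh : ∀ n : ℤ, MapsTo (fun w : ℂ => w + n * p) U U := by
    intro n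
    refine mp _ (continuous_id.add continuous_const).continuousOn (fun w hw => ⟨?_, ?_⟩) b bB ?_
    · simpa [XX] using hw.1
    · exact fun h => hw.2 ((S.cv.shift_mem n).1 h)
    · simpa [B] using bB
  refine ⟨U, (oX.sdiff S.cv.closed).connectedComponentIn, isPreconnected_connectedComponentIn, UX,
    fun w => ⟨fun h => by simpa using sh (-1) h, fun h => by simpa using sh 1 h⟩,
    mp F S.tw.cf (fun w hw => ⟨S.tw.fx hw.1, S.nf hw.1 hw.2⟩) z ⟨z0.1, z1⟩ ⟨(S.tw.fx z0).1, z2⟩,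
    mp G S.tw.cg (fun w hw => ⟨S.tw.gx hw.1, S.ng hw.1 hw.2⟩) (F z) ⟨(S.tw.fx z0).1, z2⟩
      (by rw [S.tw.gf z z0]; exact ⟨z0.1, z1⟩),
    ⟨b, (BX bB).1, fun t => lt_of_lt_of_le bB.2 (ha t)⟩, fun w hw h => ?_⟩
  refine sub (({z | z.re ≤ w.re} ∩ {z | w.re ≤ z.re}) ∩ ({z | 0 < z.im} ∩ {z | z.im ≤ w.im}))
    (((convex_halfSpace_re_le _).inter (convex_halfSpace_re_ge _)).inter
      ((convex_halfSpace_im_gt 0).inter (convex_halfSpace_im_le _))).isPreconnected ?_
    ⟨w.re, min w.im (m / 2)⟩ ⟨⟨le_refl w.re, le_refl w.re⟩, lt_min hw.1 (by linarith),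
      min_le_left w.im (m / 2)⟩
    ⟨lt_min hw.1 (by linarith), lt_of_le_of_lt (min_le_right _ _) (show m / 2 < m by linarith)⟩
    ⟨⟨le_refl w.re, le_refl w.re⟩, hw.1, le_refl w.im⟩
  rintro z ⟨⟨h1, h2⟩, h3, h4⟩
  refine ⟨⟨h3, lt_of_le_of_lt h4 hw.2⟩, ?_⟩
  rintro ⟨t, rfl⟩
  exact absurd (h t (le_antisymm h1 h2)) (not_lt.2 h4)

theorem fr_lt (w₀ : ℂ) : ∃ᶠ w in 𝓝 w₀, w.re < w₀.re := by
  have h : Tendsto (fun t : ℝ => (⟨t, w₀.im⟩ : ℂ)) (𝓝 w₀.re) (𝓝 w₀) :=
    (Complex.equivRealProdCLM.symm.continuous.comp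
      (continuous_id.prodMk continuous_const)).tendsto w₀.re
  exact h.frequently (frequently_lt_nhds w₀.re)

theorem fr_gt (w₀ : ℂ) : ∃ᶠ w in 𝓝 w₀, w₀.re < w.re := by
  have h : Tendsto (fun t : ℝ => (⟨t, w₀.im⟩ : ℂ)) (𝓝 w₀.re) (𝓝 w₀) :=
    (Complex.equivRealProdCLM.symm.continuous.comp
      (continuous_id.prodMk continuous_const)).tendsto w₀.re
  exact h.frequently (frequently_gt_nhds w₀.re)

theorem Ar.re_zero {v : ℂ} {θ : ℝ} (h : Ar v θ) : cos θ = 0 ↔ v.re = 0 := by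
  obtain ⟨r, h0, h1, h2⟩ := h
  rw [h1, mul_eq_zero]
  exact ⟨Or.inr, fun h => h.resolve_left h0.ne'⟩

theorem St.order (S : St F G p γ g) : ∀ w ∈ XX, (∀ t, (γ t).re = w.re → w.im < (γ t).im) → ∀ t,
    (w.re < (γ t).re → (F w).re < (F (γ t)).re) ∧ ((γ t).re < w.re → (G (γ t)).re < (G w).re) := by
  have hp := pi_pos
  obtain ⟨U, oU, cU, UX, pU, fU, gU, ⟨b, b0, b1⟩, V⟩ := S.side
  have C := S.cv
  have c3 : cos (π + π / 2) = 0 := by rw [add_comm, cos_add_pi]; simp
  have s3 : sin (π + π / 2) = -1 := by rw [add_comm, sin_add_pi]; simp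
  have c1 : cos (-(π / 2)) = 0 := by simp
  have bU : b ∈ U := V b b0 fun t _ => b1 t
  have Lb := C.lf (UX bU).2
  have bs : ∀ t, 0 < sin (Th γ b t) := fun t => (Lb.2.1 t).sin_pos.2 (by simpa using b1 t)
  obtain ⟨t₁, k₁⟩ := Lb.2.2.exists
  have far : ∀ w₀ ∈ U, ∃ T, ∀ᶠ w in 𝓝 w₀, ∀ t, T ≤ |t| → cos (Th γ w t) ≠ 0 := by
    intro w₀ h
    obtain ⟨T, hT⟩ := C.far w₀
    refine ⟨T, ?_⟩
    filter_upwards [hT, oU.mem_nhds h] with w a1 a2 t ht hc
    have := ((C.lf (UX a2).2).2.1 t).re_zero.1 hc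
    rcases le_abs'.1 ht with a | a
    · linarith [a1.2 t a]
    · linarith [a1.1 t a]
  have sh : ∀ w ∈ U, ∀ t, Th γ (w + p) (t + 1) = Th γ w t := fun w hw t => by
    simpa using C.shift (UX hw).2 1 t
  have c2 : ∀ w₀ ∈ U, ∀ t, ContinuousAt (fun w => Th γ w t) w₀ := fun w₀ h t =>
    (C.cont2 (UX h).2 t).comp (f := fun w => (w, t))
      (continuous_id.prodMk continuous_const).continuousAt
  have up : ∀ w ∈ U, ∀ t, Th γ w t < π + π / 2 := by
    refine trap oU cU (fun w h => (UX h).1) pU S.tw.nf S.tw.cf S.tw.pf fU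
      (fun w h t => C.cont2 (UX h).2 t) (fun w₀ h => ?_) sh (fun w h h1 t => ?_)
      ⟨b, bU, stay Lb.1 (t₁ := t₁) (by linarith [(abs_lt.1 k₁).2]) fun t ht => ?_⟩
      (fun w₀ h t₀ h1 => ?_)
    · obtain ⟨T, hT⟩ := far w₀ h
      exact ⟨T, hT.mono fun w a t ht hc => a t ht (by rw [hc, c3])⟩
    · obtain ⟨s, rfl⟩ := S.sur t
      exact S.imp (UX h).1 (UX h).2 c3 s (h1 s)
    · have := bs t
      rw [ht, s3] at this
      linarith
    · have e0 := ((C.lf (UX h).2).2.1 t₀).re_zero.1 (by rw [h1, c3])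
      have e1 : ∀ᶠ w in 𝓝 w₀, π / 2 < Th γ w t₀ :=
        continuousAt_const.eventually_lt (c2 w₀ h t₀) (by rw [h1]; linarith)
      refine ((fr_lt w₀).and_eventually (e1.and (oU.mem_nhds h))).mono fun w ⟨a1, a2, a3⟩ => ?_
      have := ((C.lf (UX a3).2).2.1 t₀).cos_pos.2 (by
        simp only [Complex.sub_re] at e0 ⊢; linarith)
      by_contra hc
      push Not at hc
      linarith [cos_nonpos_of_pi_div_two_le_of_le a2.le hc]
  have dn : ∀ w ∈ U, ∀ t, -Th γ w t < π / 2 := by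
    refine trap (ξ := fun w t => -Th γ w t) oU cU (fun w h => (UX h).1) pU S.tw.ng S.tw.cg S.tw.pg
      gU (fun w h t => (C.cont2 (UX h).2 t).neg) (fun w₀ h => ?_)
      (fun w h t => by rw [sh w h]) (fun w h h1 t => ?_)
      ⟨b, bU, stay Lb.1.neg (t₁ := t₁) (by
        show -Th γ b t₁ < π / 2; linarith [(abs_lt.1 k₁).1]) fun t ht => ?_⟩
      (fun w₀ h t₀ h1 => ?_)
    · obtain ⟨T, hT⟩ := far w₀ h
      exact ⟨T, hT.mono fun w a t ht hc => a t ht (by rw [← cos_neg, hc]; simp)⟩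
    · by_contra hc
      push Not at hc
      have := S.imp (UX (gU h)).1 (UX (gU h)).2 c1 t (by linarith)
      rw [S.tw.fg _ (UX h).1] at this
      linarith [h1 (g t)]
    · have := bs t
      have e : Th γ b t = -(π / 2) := by
        have : -Th γ b t = π / 2 := ht
        linarith
      rw [e] at this
      simp at this
      linarith
    · have e : Th γ w₀ t₀ = -(π / 2) := by linarith
      have e0 := ((C.lf (UX h).2).2.1 t₀).re_zero.1 (by rw [e, c1])
      have e1 : ∀ᶠ w in 𝓝 w₀, Th γ w t₀ < π / 2 :=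
        (c2 w₀ h t₀).eventually_lt continuousAt_const (by rw [e]; linarith)
      refine ((fr_gt w₀).and_eventually (e1.and (oU.mem_nhds h))).mono fun w ⟨a1, a2, a3⟩ => ?_
      have := ((C.lf (UX a3).2).2.1 t₀).cos_neg.2 (by
        simp only [Complex.sub_re] at e0 ⊢; linarith)
      linarith [lt_of_cos_neg this a2]
  intro w hx hv t
  have hw := V w hx hv
  constructor
  · intro h
    obtain ⟨α, A, k⟩ := S.key hx (UX hw).2
    have a1 := ((C.lf (UX hw).2).2.1 t).cos_pos.2 (by simp only [Complex.sub_re]; linarith)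
    have a2 : Th γ w t < π / 2 := by
      by_contra hc
      push Not at hc
      linarith [cos_nonpos_of_pi_div_two_le_of_le hc (up w hw t).le]
    have a3 := (k (π / 2) (by simp) t).1.2.1 a2
    have a4 : ¬ α t - π / 2 ≤ -(π / 2) := fun hc => by
      linarith [(k _ c1 t).2.1.1 hc, dn _ (fU hw) (g t)]
    have := (A t).sin_pos.1 (sin_pos_of_pos_of_lt_pi (by linarith) (by linarith))
    simpa using this
  · intro h
    obtain ⟨s, rfl⟩ := S.sur t
    have hw' := gU hw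
    obtain ⟨α, A, k⟩ := S.key (UX hw').1 (UX hw').2
    have a1 := ((C.lf (UX hw).2).2.1 (g s)).cos_neg.2 (by simp only [Complex.sub_re]; linarith)
    have a2 := gt_of_cos_neg a1 (by linarith [dn w hw (g s)])
    have a3 : ¬ α s - π / 2 ≤ π / 2 := fun hc => by
      have := (k (π / 2) (by simp) s).2.1.1 hc
      rw [S.tw.fg _ hx] at this
      linarith
    have a4 := (k _ c3 s).1.2.1 (up _ hw' s)
    have := (A s).cos_neg.1 (cos_neg_of_pi_div_two_lt_of_lt (by linarith) a4)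
    rw [S.hg, S.tw.gf _ (S.hx s)]
    simpa using this

theorem St.graph (S : St F G p γ g) :
    ∃ φ : ℝ → ℝ, Continuous φ ∧ ∀ z : ℂ, z ∈ range γ ↔ z.im = φ z.re := by
  have C := S.cv
  have mk : ∀ x : ℝ, Continuous fun y : ℝ => (⟨x, y⟩ : ℂ) := fun x =>
    Complex.equivRealProdCLM.symm.continuous.comp (continuous_const.prodMk continuous_id)
  have mk2 : Continuous fun q : ℝ × ℝ => (⟨q.1, q.2⟩ : ℂ) :=
    Complex.equivRealProdCLM.symm.continuous
  have ex : ∀ x : ℝ, ∃ y, IsLeast {y | (⟨x, y⟩ : ℂ) ∈ range γ} y := by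
    intro x
    obtain ⟨t, ht⟩ := C.cre.surjective C.top C.bot x
    have h1 : IsClosed {y | (⟨x, y⟩ : ℂ) ∈ range γ} := C.closed.preimage (mk x)
    refine ⟨_, h1.isLeast_csInf ⟨(γ t).im, t, Complex.ext ht rfl⟩ ⟨0, ?_⟩⟩
    rintro y ⟨s, hs⟩
    have := (S.hx s).1
    rw [hs] at this
    exact this.le
  choose φ hφ using ex
  have hX : ∀ x, (⟨x, φ x⟩ : ℂ) ∈ XX := fun x => by
    obtain ⟨s, hs⟩ := (hφ x).1
    rw [← hs]; exact S.hx s
  have cφ : Continuous φ := by
    refine continuous_iff_continuousAt.2 fun x₀ => tendsto_order.2 ⟨fun a ha => ?_, fun b hb => ?_⟩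
    · have k := (isCompact_Icc (a := (0 : ℝ)) (b := a)).eventually_forall_of_forall_eventually
        (x₀ := x₀) (P := fun x y => (⟨x, y⟩ : ℂ) ∉ range γ) (fun y hy =>
          mk2.continuousAt.eventually (C.closed.isOpen_compl.mem_nhds fun h => by
            linarith [(hφ x₀).2 h, hy.2]))
      filter_upwards [k] with x hx
      by_contra hc
      push Not at hc
      exact hx (φ x) ⟨(hX x).1.le, hc⟩ (hφ x).1
    · obtain ⟨y, y1, y2⟩ := exists_between (lt_min hb (hX x₀).2)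
      have y3 : y < b := lt_of_lt_of_le y2 (min_le_left _ _)
      have y4 : y < π := lt_of_lt_of_le y2 (min_le_right _ _)
      have qX : ∀ x, (⟨x, y⟩ : ℂ) ∈ XX := fun x => ⟨lt_trans (hX x₀).1 y1, y4⟩
      have cq : Continuous fun x : ℝ => (⟨x, y⟩ : ℂ) :=
        mk2.comp (continuous_id.prodMk continuous_const)
      obtain ⟨s, hs⟩ := (hφ x₀).1
      have e1 : ∀ᶠ x in 𝓝 x₀, (F (γ s)).re < (F ⟨x, y⟩).re :=
        continuousAt_const.eventually_lt
          (Complex.continuous_re.comp (S.tw.cf.comp_continuous cq qX)).continuousAt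
          (by rw [hs]; exact S.tw.t1 _ (hX x₀) _ (qX x₀) rfl y1)
      have e2 : ∀ᶠ x in 𝓝 x₀, (G ⟨x, y⟩).re < (G (γ s)).re :=
        (Complex.continuous_re.comp (S.tw.cg.comp_continuous cq qX)).continuousAt.eventually_lt
          continuousAt_const (by rw [hs]; exact S.tw.t2 _ (hX x₀) _ (qX x₀) rfl y1)
      filter_upwards [e1, e2] with x a1 a2
      by_contra hc
      push Not at hc
      have o := S.order ⟨x, y⟩ (qX x) (fun t ht => by
        have := (hφ x).2 (show (⟨x, (γ t).im⟩ : ℂ) ∈ range γ from ⟨t, Complex.ext ht rfl⟩)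
        show y < _
        linarith) s
      rcases lt_trichotomy x x₀ with h | h | h
      · linarith [o.1 (by rw [hs]; exact h)]
      · subst h; linarith
      · linarith [o.2 (by rw [hs]; exact h)]
  choose s hs using fun x => (hφ x).1
  have cs : Continuous s := by
    refine S.emb.isEmbedding.continuous_iff.2 ?_
    have : γ ∘ s = fun x => (⟨x, φ x⟩ : ℂ) := funext hs
    rw [this]
    exact mk2.comp (continuous_id.prodMk cφ)
  have pφ : ∀ x, φ (x + p) = φ x := by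
    intro x
    apply le_antisymm
    · refine (hφ (x + p)).2 ?_
      have := (C.shift_mem 1).2 (hφ x).1
      show (⟨x + p, φ x⟩ : ℂ) ∈ range γ
      convert this using 1
      apply Complex.ext <;> simp
    · refine (hφ x).2 ?_
      have := (C.shift_mem (-1)).2 (hφ (x + p)).1
      show (⟨x, φ (x + p)⟩ : ℂ) ∈ range γ
      convert this using 1
      apply Complex.ext <;> simp
  have ps : ∀ x, s (p * (x + 1)) = s (p * x) + 1 := by
    intro x
    apply S.inj
    rw [C.per, hs, hs, mul_add, mul_one, pφ]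
    apply Complex.ext <;> simp
  have cs' : Continuous fun x => s (p * x) := cs.comp (continuous_const.mul continuous_id)
  have su := cs'.surjective (per_top cs' ps one_pos) (per_bot cs' ps one_pos)
  refine ⟨φ, cφ, fun z => ⟨?_, fun h => ?_⟩⟩
  · rintro ⟨t, rfl⟩
    obtain ⟨x, rfl⟩ := su t
    simp only [hs]
  · have := (hφ z.re).1
    rwa [← h] at this

end Vale.Agent.P097B
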