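import Vale.Agent.P097B.Sup
import Vale.Agent.P097A.All
import Vale.Agent.P097.H402.Equiv

/-! # P097B : the theorem on algebraic tables under the literal hypothesis -/

set_option linter.all false

namespace Vale.Agent.P097B.Arc

open Filter Topology Vale.Agent.P097

theorem intBd {Ω : Set ℂ} {L : ℝ} {Γ : ℝ → ℂ} (T : Table Ω L Γ) (F : Filled L Γ) :
    IsTable (supp Ω) ∧ H402.IntBd (supp Ω) :=
  (H402.equivalence (dict T).1).2.1 ((dict T).2.2.1.1 F)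

theorem alg (Ω : Set ℂ) (L : ℝ) (Γ : ℝ → ℂ) (T : Table Ω L Γ) (F : Filled L Γ) :
    (∀ p : MvPolynomial (Fin 2) ℝ, p ≠ 0 →
      {z ∈ frontier Ω | MvPolynomial.eval ![z.re, z.im] p = 0}.Infinite → IsEllipse Ω) ∧
    (∀ (H : ℂ → ℂ) (U : Set ℂ) (ψ₀ : ℝ), IsOpen U → IsPreconnected U → DifferentiableOn ℂ H U →
      (ψ₀ : ℂ) ∈ U → (∀ᶠ ψ : ℝ in 𝓝 ψ₀, H ψ = supp Ω ψ) →
      ∀ z ∈ U, H z + deriv (deriv H) z ≠ 0) :=
  ⟨fun p hp hi => (dict T).2.2.2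
      (P097A.t1' _ p (intBd T F).1 (intBd T F).2 hp (infinite_angles T hi)),
    fun H U ψ₀ => P097A.t2' _ H U ψ₀ (intBd T F).1 (intBd T F).2⟩

end Vale.Agent.P097B.Arc
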