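import Vale.Agent.P097B.Tw

/-! # P097B : a map which preserves a periodic measure has no trapping region -/

set_option linter.all false

namespace Vale.Agent.P097B

open Real Set Filter Topology MeasureTheory
open scoped ENNReal

/-- a vertical strip -/
def Sx (a b : ℝ) : Set ℂ := {z | a ≤ z.re ∧ z.re < b}

theorem mSx (a b : ℝ) : MeasurableSet (Sx a b) :=
  (measurableSet_le measurable_const Complex.measurable_re).inter
    (measurableSet_lt Complex.measurable_re measurable_const)

theorem nt_of {H : ℂ → ℂ} {p : ℝ} (μ : Measure ℂ) (hp : 0 < p)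
    (ha : ∀ E, MeasurableSet E → μ ((fun z : ℂ => z + p) ⁻¹' E) = μ E)
    (hb : ∀ E S, MeasurableSet E → MeasurableSet S → E ⊆ XX → S ⊆ XX → MapsTo H E S → μ E ≤ μ S)
    (hc : ∀ a b, μ (XX ∩ Sx a b) ≠ ∞) (hd : ∀ O, IsOpen O → O ⊆ XX → μ O = 0 → O = ∅)
    (he : ∀ z ∈ XX, |(H z).re - z.re| ≤ p) : NT H p := by
  intro A N oA oN AX NX pA pN dj fA fN
  have s1 : ∀ E, MeasurableSet E → (∀ z : ℂ, z + p ∈ E ↔ z ∈ E) → ∀ a b,
      μ (E ∩ Sx (a + p) (b + p)) = μ (E ∩ Sx a b) := by
    intro E mE pE a b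
    rw [← ha _ (mE.inter (mSx _ _))]
    congr 1
    ext z
    simp [Sx, pE]
  have s2 : ∀ E, MeasurableSet E → (∀ z : ℂ, z + p ∈ E ↔ z ∈ E) → ∀ a (n : ℕ),
      μ (E ∩ Sx a (a + n * p)) = n * μ (E ∩ Sx a (a + p)) := by
    intro E mE pE a n
    have k : ∀ n : ℕ, μ (E ∩ Sx (a + n * p) (a + n * p + p)) = μ (E ∩ Sx a (a + p)) := by
      intro n
      induction n with
      | zero => simp
      | succ n ih =>
        rw [← ih, ← s1 E mE pE (a + n * p)]
        push_cast
        rw [add_mul, one_mul, ← add_assoc a]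
    induction n with
    | zero =>
      have : E ∩ Sx a (a + (0 : ℕ) * p) = ∅ := by
        ext z; simp [Sx]
      rw [this]; simp
    | succ n ih =>
      have n0 : 0 ≤ n * p := by positivity
      have : E ∩ Sx a (a + (n + 1 : ℕ) * p) =
          (E ∩ Sx a (a + n * p)) ∪ (E ∩ Sx (a + n * p) (a + n * p + p)) := by
        ext z
        simp only [Sx, mem_inter_iff, mem_setOf_eq, mem_union]
        push_cast
        constructor
        · rintro ⟨h1, h2, h3⟩
          rcases lt_or_ge z.re (a + n * p) with h | h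
          · exact Or.inl ⟨h1, h2, h⟩
          · exact Or.inr ⟨h1, h, by linarith⟩
        · rintro (⟨h1, h2, h3⟩ | ⟨h1, h2, h3⟩)
          · exact ⟨h1, h2, by linarith⟩
          · exact ⟨h1, by linarith, by linarith⟩
      rw [this, measure_union (disjoint_left.2 fun z h1 h2 => by linarith [h1.2.2, h2.2.1])
        (mE.inter (mSx _ _)), ih, k]
      push_cast
      rw [add_mul, one_mul]
  by_contra hN
  obtain ⟨z₀, hz⟩ := nonempty_iff_ne_empty.2 hN
  set a := z₀.re - p / 2 with ha'
  have mA := oA.measurableSet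
  have mN := oN.measurableSet
  have fin : μ (A ∩ Sx a (a + p)) ≠ ∞ :=
    ne_top_of_le_ne_top (hc a (a + p)) (measure_mono (inter_subset_inter_left _ AX))
  have pos : μ (N ∩ Sx a (a + p)) ≠ 0 := by
    intro h
    have := hd (N ∩ ({z | a < z.re} ∩ {z | z.re < a + p}))
      (oN.inter ((isOpen_lt continuous_const Complex.continuous_re).inter
        (isOpen_lt Complex.continuous_re continuous_const))) (fun z h => NX h.1)
      (measure_mono_null (fun z h => show z ∈ N ∩ Sx a (a + p) from ⟨h.1, le_of_lt h.2.1, h.2.2⟩) h)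
    have k : z₀ ∈ N ∩ ({z : ℂ | a < z.re} ∩ {z | z.re < a + p}) :=
      ⟨hz, by show a < z₀.re; linarith, by show z₀.re < a + p; linarith⟩
    rw [this] at k
    exact k
  obtain ⟨n, hn⟩ := ENNReal.exists_nat_mul_gt pos
    (b := 2 * μ (A ∩ Sx a (a + p))) (ENNReal.mul_ne_top (by simp) fin)
  have k := hb ((A ∪ N) ∩ Sx (a + p) (a + n * p + p)) (A ∩ Sx a (a + (n + 2 : ℕ) * p))
    ((mA.union mN).inter (mSx _ _)) (mA.inter (mSx _ _))
    (fun z h => h.1.elim (fun h => AX h) fun h => NX h) (fun z h => AX h.1) (fun z h => by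
      have := abs_le.1 (he z (h.1.elim (fun h => AX h) fun h => NX h))
      refine ⟨h.1.elim (fun h => fA h) fun h => fN h, by linarith [h.2.1], ?_⟩
      push_cast
      linarith [h.2.2])
  rw [s1 _ (mA.union mN) (fun z => by simp [pA, pN]), union_inter_distrib_right,
    measure_union (dj.mono inter_subset_left inter_subset_left) (mN.inter (mSx _ _)),
    s2 A mA pA, s2 A mA pA, s2 N mN pN] at k
  push_cast at k
  rw [add_mul] at k
  have := (ENNReal.add_le_add_iff_left (ENNReal.mul_ne_top (by simp) fin)).1 k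
  exact absurd hn (not_lt.2 this)

end Vale.Agent.P097B
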