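import Vale.Agent.P097B.Bil
import Vale.Agent.P097B.Nt

/-! # P097B : the invariant measure of the billiard map -/

set_option linter.all false

namespace Vale.Agent.P097B

open Real Set Filter Topology MeasureTheory Vale.Agent.P097
open scoped ENNReal

variable {h : ℝ → ℝ} {ε : ℝ}

/-- the outgoing (`ε = 1`) or incoming (`ε = -1`) line of a phase point -/
noncomputable def LL (h : ℝ → ℝ) (ε : ℝ) (q : ℝ × ℝ) : ℝ × ℝ :=
  (q.1 + ε * q.2, K h (q.1 + ε * q.2) q.1)

/-- its derivative -/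
noncomputable def DL (h : ℝ → ℝ) (ε : ℝ) (q : ℝ × ℝ) : ℝ × ℝ →L[ℝ] ℝ × ℝ :=
  (Matrix.toLin (.finTwoProd ℝ) (.finTwoProd ℝ)
    !![1, ε; deriv h q.1 * cos (ε * q.2) + deriv (deriv h) q.1 * sin (ε * q.2),
      ε * (deriv h q.1 * cos (ε * q.2) - h q.1 * sin (ε * q.2))]).toContinuousLinearMap

theorem has_DL (H : SmoothTable h) (q : ℝ × ℝ) : HasFDerivAt (LL h ε) (DL h ε q) q := by
  have e : LL h ε = fun q : ℝ × ℝ =>
      (q.1 + ε * q.2, h q.1 * cos (ε * q.2) + deriv h q.1 * sin (ε * q.2)) := by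
    funext q
    simp [LL, K]
  rw [e]
  unfold DL
  rw [Matrix.toLin_finTwoProd_toContinuousLinearMap]
  have h0 : HasFDerivAt (fun q : ℝ × ℝ => ε * q.2) (ε • ContinuousLinearMap.snd ℝ ℝ ℝ) q :=
    hasFDerivAt_snd.const_mul ε
  have h5 : HasFDerivAt (fun q : ℝ × ℝ => q.1) (ContinuousLinearMap.fst ℝ ℝ ℝ) q := hasFDerivAt_fst
  have h1 := ((adm H).an.hasDerivAt q.1).comp_hasFDerivAt q h5
  have h2 := ((adm H).an.deriv.hasDerivAt q.1).comp_hasFDerivAt q h5
  have h3 := (hasDerivAt_cos (ε * q.2)).comp_hasFDerivAt q h0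
  have h4 := (hasDerivAt_sin (ε * q.2)).comp_hasFDerivAt q h0
  refine (HasFDerivAt.prodMk (h5.add h0) ((h1.mul h3).add (h2.mul h4))).congr_fderiv ?_
  ext <;> simp <;> ring

theorem det_DL (e : ε = 1 ∨ ε = -1) (q : ℝ × ℝ) : (DL h ε q).det = -(rad h q.1 * sin q.2) := by
  unfold DL
  simp only [LinearMap.det_toContinuousLinearMap, LinearMap.det_toLin, Matrix.det_fin_two_of, rad]
  rcases e with rfl | rfl <;> simp <;> ring

/-- the point of the plane with given coordinates -/
def mk (q : ℝ × ℝ) : ℂ := ⟨q.1, q.2⟩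

theorem cmk : Continuous mk := Complex.equivRealProdCLM.symm.continuous

/-- the density -/
noncomputable def dens (h : ℝ → ℝ) (q : ℝ × ℝ) : ℝ := |rad h q.1 * sin q.2|

theorem cdens (H : SmoothTable h) : Continuous (dens h) := by
  have h1 := (adm H).an.continuous
  have h2 := (adm H).an.deriv.deriv.continuous
  unfold dens rad
  fun_prop

/-- the invariant measure -/
noncomputable def mu (h : ℝ → ℝ) : Measure ℂ :=
  (volume.withDensity fun q => ENNReal.ofReal (dens h q)).map mk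

theorem mu_app {E : Set ℂ} (hE : MeasurableSet E) :
    mu h E = ∫⁻ q in mk ⁻¹' E, ENNReal.ofReal (dens h q) := by
  rw [mu, Measure.map_apply cmk.measurable hE, withDensity_apply _ (cmk.measurable hE)]

theorem mu_eq (H : SmoothTable h) (e : ε = 1 ∨ ε = -1) {E : Set ℂ} (hE : MeasurableSet E)
    (hX : E ⊆ XX) : mu h E = volume (LL h ε '' (mk ⁻¹' E)) := by
  rw [mu_app hE, ← lintegral_abs_det_fderiv_eq_addHaar_image volume (cmk.measurable hE)
    (fun q _ => (has_DL H q).hasFDerivWithinAt)]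
  · simp only [det_DL e, abs_neg, dens]
  · intro q hq r hr hqr
    have a := hX hq
    have b := hX hr
    have e1 : q.1 + ε * q.2 = r.1 + ε * r.2 := congrArg Prod.fst hqr
    have e2 : K h (q.1 + ε * q.2) q.1 = K h (r.1 + ε * r.2) r.1 := congrArg Prod.snd hqr
    have k1 := kk_self (h := h) (ε := ε) (mk q)
    have k2 := kk_self (h := h) (ε := ε) (mk r)
    simp only [mk] at k1 k2
    have e3 : q.2 = r.2 := (kk_anti H (neg_e e) (r.1 + ε * r.2)).injOn ⟨a.1.le, a.2.le⟩
      ⟨b.1.le, b.2.le⟩ (by rw [k2, ← e2, ← k1, e1]; rfl)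
    refine Prod.ext ?_ e3
    rw [e3] at e1
    linarith

theorem HH_nt (H : SmoothTable h) (e : ε = 1 ∨ ε = -1) : NT (HH h ε) (2 * π) := by
  refine nt_of (mu h) (by positivity) (fun E hE => ?_) (fun E S hE hS EX SX hm => ?_)
    (fun a b => ?_) (fun O hO OX h0 => ?_) (fun z hz => HH_bd H e hz)
  · have m1 : MeasurableSet ((fun z : ℂ => z + (2 * π : ℝ)) ⁻¹' E) :=
      (measurable_id.add_const _) hE
    rw [mu_app hE, mu_app m1, ← lintegral_indicator (cmk.measurable hE),
      ← lintegral_indicator (cmk.measurable m1),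
      ← lintegral_add_right_eq_self
        (indicator (mk ⁻¹' E) fun q => ENNReal.ofReal (dens h q)) ((2 * π, 0) : ℝ × ℝ)]
    refine lintegral_congr fun q => ?_
    have e1 : mk (q + (2 * π, 0)) = mk q + (2 * π : ℝ) := by
      apply Complex.ext <;> simp [mk]
    have e2 : dens h (q + (2 * π, 0)) = dens h q := by
      simp [dens, rad_per H.2.1]
    by_cases hq : mk q + (2 * π : ℝ) ∈ E
    · rw [indicator_of_mem (show q ∈ mk ⁻¹' ((fun z : ℂ => z + (2 * π : ℝ)) ⁻¹' E) from hq),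
        indicator_of_mem (show q + _ ∈ mk ⁻¹' E by rwa [mem_preimage, e1]), e2]
    · rw [indicator_of_notMem (show q ∉ mk ⁻¹' ((fun z : ℂ => z + (2 * π : ℝ)) ⁻¹' E) from hq),
        indicator_of_notMem (show q + _ ∉ mk ⁻¹' E by rwa [mem_preimage, e1])]
  · rw [mu_eq H e hE EX, mu_eq H (neg_e e) hS SX]
    apply measure_mono
    rintro _ ⟨q, hq, rfl⟩
    obtain ⟨a, b⟩ := HH_line H e (EX hq)
    refine ⟨((HH h ε (mk q)).re, (HH h ε (mk q)).im), hm hq, ?_⟩
    simp only [LL]
    rw [a, b]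
    rfl
  · haveI := IsLocallyFiniteMeasure.withDensity_ofReal (μ := (volume : Measure (ℝ × ℝ))) (cdens H)
    rw [mu, Measure.map_apply cmk.measurable (oX.measurableSet.inter (mSx a b))]
    refine ne_top_of_le_ne_top ((isCompact_Icc (a := a) (b := b)).prod
      (isCompact_Icc (a := (0 : ℝ)) (b := π))).measure_ne_top (measure_mono ?_)
    rintro q ⟨⟨a1, a2⟩, a3, a4⟩
    exact ⟨⟨a3, le_of_lt a4⟩, le_of_lt a1, le_of_lt a2⟩
  · rw [mu, Measure.map_apply cmk.measurable hO.measurableSet,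
      withDensity_apply_eq_zero (cdens H).measurable.ennreal_ofReal] at h0
    have e1 : {q | ENNReal.ofReal (dens h q) ≠ 0} ∩ mk ⁻¹' O = mk ⁻¹' O := by
      refine inter_eq_right.2 fun q hq => ?_
      have a := OX hq
      have : 0 < dens h q := abs_pos.2 (mul_pos (H.2.2 q.1) (sin_pos_of_pos_of_lt_pi a.1 a.2)).ne'
      simpa using this
    rw [e1, (hO.preimage cmk).measure_eq_zero_iff volume] at h0
    refine eq_empty_of_forall_notMem fun z hz => ?_
    have : (z.re, z.im) ∈ mk ⁻¹' O := hz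
    rw [h0] at this
    exact this

theorem tw (H : SmoothTable h) : Tw (HH h 1) (HH h (-1)) (2 * π) where
  fx := HH_x H (Or.inl rfl)
  gx := HH_x H (Or.inr rfl)
  gf := fun z hz => HH_inv H (Or.inl rfl) hz
  fg := fun z hz => by simpa using HH_inv H (Or.inr rfl) hz
  cf := HH_cont H (Or.inl rfl)
  cg := HH_cont H (Or.inr rfl)
  pf := fun z hz => HH_per H (Or.inl rfl) hz
  t1 := fun z hz w hw a b => by simpa using HH_tw H (Or.inl rfl) hz hw a b
  t2 := fun z hz w hw a b => by simpa using HH_tw H (Or.inr rfl) hz hw a b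
  low := fun m hm => HH_low H hm
  nf := HH_nt H (Or.inl rfl)
  ng := HH_nt H (Or.inr rfl)

end Vale.Agent.P097B
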