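import Vale.Agent.P097B.Defs
import Vale.Agent.P097B.Mes
import Vale.Agent.P097B.Gr

/-! # P097B : Birkhoff's graph theorem for the billiard map -/

set_option linter.all false

namespace Vale.Agent.P097B

open Real Set Filter Topology Vale.Agent.P097

variable {h : ℝ → ℝ}

theorem step_shift (H : SmoothTable h) {a δ b δ' : ℝ} (S : Step h a δ b δ') (n : ℤ) :
    Step h (a + n * (2 * π)) δ (b + n * (2 * π)) δ' := by
  have hp : Function.Periodic h (2 * π) := H.2.1
  refine Step.rot (c := (-n : ℤ) * (2 * π)) (hp.int_mul (-n)) ?_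
  push_cast
  simpa using S

theorem coe_eq {p x y : ℝ} : (x : AddCircle p) = (y : AddCircle p) ↔ ∃ n : ℤ, x = y + n * p := by
  rw [← sub_eq_zero, ← AddCircle.coe_sub, AddCircle.coe_eq_zero_iff]
  constructor
  · rintro ⟨n, hn⟩
    exact ⟨n, by rw [zsmul_eq_mul] at hn; linarith⟩
  · rintro ⟨n, hn⟩
    exact ⟨n, by rw [zsmul_eq_mul]; linarith⟩

/-- the lifted form -/
theorem lifted (H : SmoothTable h) {γ : ℝ → ℂ} {k : ℤ} (k0 : 0 < k) (hc : Continuous γ)
    (hp : ∀ t, γ (t + 1) = γ t + (k * (2 * π) : ℝ))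
    (hs : ∀ s t (m : ℤ), γ s = γ t + (m * (2 * π) : ℝ) → ∃ n : ℤ, s = t + n)
    (hi : ∀ t, ∃ (s : ℝ) (m : ℤ), Step h (γ t).re (γ t).im ((γ s).re + m * (2 * π)) (γ s).im) :
    ∃ f, InvGraph h f ∧ ∀ t, f (γ t).re = (γ t).im := by
  have p0 : 0 < 2 * π := by positivity
  have C0 : Cv γ (k * (2 * π)) := ⟨hc, mul_pos (by exact_mod_cast k0) p0, hp⟩
  have k1 : k = 1 := C0.once p0 fun s t e => hs s t 1 (by simpa using e)
  subst k1
  have C : Cv γ (2 * π) := by simpa using C0
  have inj : Function.Injective γ := by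
    intro s t e
    obtain ⟨n, rfl⟩ := hs s t 0 (by simpa using e)
    rw [C.per_int] at e
    have := congrArg Complex.re e
    simp [pi_pos.ne'] at this
    simp [this]
  have hi' : ∀ t, ∃ s, Step h (γ t).re (γ t).im (γ s).re (γ s).im := by
    intro t
    obtain ⟨s, m, S⟩ := hi t
    refine ⟨s + m, ?_⟩
    rw [C.per_int]
    simpa using S
  choose g hg using hi'
  have S : St (HH h 1) (HH h (-1)) (2 * π) γ g :=
    ⟨tw H, C, inj, fun t => ⟨(hg t).1, (hg t).2.1⟩, fun t => (HH_step H (hg t)).symm⟩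
  obtain ⟨f, cf, hf⟩ := S.graph
  have on : ∀ x, (⟨x, f x⟩ : ℂ) ∈ range γ := fun x => (hf _).2 rfl
  refine ⟨f, ⟨cf, fun x => ?_, fun x => ?_, fun x => ?_⟩, fun t => ((hf _).1 ⟨t, rfl⟩).symm⟩
  · have := (hf _).1 ((C.shift_mem 1).2 (on x))
    simpa using this.symm
  · obtain ⟨t, ht⟩ := on x
    have := S.hx t
    rw [ht] at this
    exact this
  · obtain ⟨t, ht⟩ := on x
    have := hg t
    rw [ht, (hf _).1 ⟨g t, rfl⟩] at this
    exact ⟨_, this⟩

/-- Birkhoff: an invariant rotational curve is an invariant graph -/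
theorem RotCurve.graph (H : SmoothTable h) {c : C(AddCircle (1 : ℝ), Phase)} (R : RotCurve h c) :
    ∃ f, InvGraph h f ∧ ∀ (t : AddCircle (1 : ℝ)) (ψ : ℝ), (ψ : AddCircle (2 * π)) = (c t).1 →
      f ψ = (c t).2 := by
  have p0 : 0 < 2 * π := by positivity
  haveI : Fact (0 < 2 * π) := ⟨p0⟩
  obtain ⟨inj, nn, inv⟩ := R
  have cq : Continuous fun t : ℝ => (t : AddCircle (1 : ℝ)) := AddCircle.continuous_mk' 1
  have cq2 : Continuous fun t : ℝ => (t : AddCircle (2 * π)) := AddCircle.continuous_mk' _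
  have cc : Continuous fun t : ℝ => c t := c.continuous.comp cq
  obtain ⟨x₀, hx₀⟩ := QuotientAddGroup.mk_surjective (c ((0 : ℝ) : AddCircle (1 : ℝ))).1
  have cov := AddCircle.isCoveringMap_coe (2 * π)
  obtain ⟨x, ⟨-, hx⟩, -⟩ := cov.existsUnique_continuousMap_lifts
    (⟨fun t : ℝ => (c t).1, continuous_fst.comp cc⟩ : C(ℝ, AddCircle (2 * π))) 0 x₀ hx₀
  have hx' : ∀ t : ℝ, (x t : AddCircle (2 * π)) = (c t).1 := fun t => congrFun hx t
  have c1 : ∀ t : ℝ, ((t + 1 : ℝ) : AddCircle (1 : ℝ)) = t := AddCircle.coe_add_period 1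
  obtain ⟨k, hk⟩ := coe_eq.1 (show (x (0 + 1) : AddCircle (2 * π)) = x 0 by rw [hx', hx', c1])
  have px : ∀ t, x (t + 1) = x t + k * (2 * π) := by
    have := cov.eq_of_comp_eq (g₁ := fun t => x (t + 1)) (g₂ := fun t => x t + k * (2 * π))
      (x.continuous.comp (continuous_id.add continuous_const))
      (x.continuous.add continuous_const) (funext fun t => by
        show (x (t + 1) : AddCircle (2 * π)) = ((x t + k * (2 * π) : ℝ) : AddCircle (2 * π))
        rw [hx', c1, ← hx']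
        exact (coe_eq.2 ⟨k, rfl⟩).symm) 0 hk
    exact fun t => congrFun this t
  have k0 : k ≠ 0 := by
    rintro rfl
    apply nn
    have pe : Function.Periodic x 1 := fun t => by simpa using px t
    have cl : Continuous pe.lift :=
      (QuotientAddGroup.isQuotientMap_mk _).continuous_iff.2 x.continuous
    haveI : ContractibleSpace (Ioo (0 : ℝ) π) :=
      (convex_Ioo 0 π).contractibleSpace (nonempty_Ioo.2 pi_pos)
    let c' : C(AddCircle (1 : ℝ), ℝ × Ioo (0 : ℝ) π) :=
      ⟨fun t => (pe.lift t, (c t).2), cl.prodMk (continuous_snd.comp c.continuous)⟩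
    let q : C(ℝ × Ioo (0 : ℝ) π, Phase) :=
      ⟨fun z => (z.1, z.2), (cq2.comp continuous_fst).prodMk continuous_snd⟩
    have e : c = q.comp ((ContinuousMap.id _).comp c') := by
      ext1 t
      obtain ⟨t, rfl⟩ := QuotientAddGroup.mk_surjective t
      exact Prod.ext (hx' t).symm rfl
    rw [e]
    exact ((id_nullhomotopic _).comp_left c').comp_right q
  let γ : ℝ → ℂ := fun t => ⟨x t, (c t).2⟩
  have cγ : Continuous γ := cmk.comp
    (x.continuous.prodMk (continuous_subtype_val.comp (continuous_snd.comp cc)))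
  have hp : ∀ t, γ (t + 1) = γ t + (k * (2 * π) : ℝ) := fun t =>
    Complex.ext (by simp [γ, px]) (by simp [γ, c1])
  have hs : ∀ s t (m : ℤ), γ s = γ t + (m * (2 * π) : ℝ) → ∃ n : ℤ, s = t + n := by
    intro s t m e
    have e1 : x s = x t + m * (2 * π) := by simpa [γ] using congrArg Complex.re e
    have e2 : ((c s).2 : ℝ) = (c t).2 := by simpa [γ] using congrArg Complex.im e
    have := inj (Prod.ext (by rw [← hx', ← hx']; exact coe_eq.2 ⟨m, e1⟩) (Subtype.ext e2))
    simpa using coe_eq.1 this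
  have hi : ∀ t, ∃ (s : ℝ) (m : ℤ),
      Step h (γ t).re (γ t).im ((γ s).re + m * (2 * π)) (γ s).im := by
    intro t
    obtain ⟨s, ψ, ψ', a1, a2, S⟩ := inv t
    obtain ⟨s, rfl⟩ := QuotientAddGroup.mk_surjective s
    obtain ⟨n, hn⟩ := coe_eq.1 ((hx' t).trans a1.symm)
    obtain ⟨m, hm⟩ := coe_eq.1 (a2.trans (hx' s).symm)
    refine ⟨s, m + n, ?_⟩
    have := step_shift H S n
    rw [← hn, hm] at this
    push_cast
    rw [add_mul, ← add_assoc]
    exact this
  have fin : ∃ f, InvGraph h f ∧ ∀ t, f (γ t).re = (γ t).im := by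
    rcases lt_or_gt_of_ne k0 with a | a
    · obtain ⟨f, a1, a2⟩ := lifted H (γ := fun t => γ (-t)) (k := -k) (by omega)
        (cγ.comp continuous_neg) (fun t => by
          have := hp (-(t + 1))
          rw [show -(t + 1) + 1 = -t by ring] at this
          rw [this]; push_cast; ring)
        (fun s t m e => by
          obtain ⟨n, hn⟩ := hs _ _ m e
          exact ⟨-n, by push_cast; linarith⟩)
        (fun t => by
          obtain ⟨s, m, S⟩ := hi (-t)
          exact ⟨-s, m, by simpa using S⟩)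
      exact ⟨f, a1, fun t => by simpa using a2 (-t)⟩
    · exact lifted H a cγ hp hs hi
  obtain ⟨f, a1, a2⟩ := fin
  refine ⟨f, a1, fun t ψ e => ?_⟩
  obtain ⟨t, rfl⟩ := QuotientAddGroup.mk_surjective t
  obtain ⟨n, rfl⟩ := coe_eq.1 (e.trans (hx' t).symm)
  have pf : Function.Periodic f (2 * π) := a1.2.1
  rw [pf.int_mul n]
  exact a2 t

/-- invariant rotational curves through all the points of a collar give invariant graphs -/
theorem collar_of_filled (H : SmoothTable h) {η : ℝ} (F : Filled h η) : Collar h (min η π) := by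
  intro ψ δ h0 h1
  obtain ⟨c, R, t, ht⟩ := F (ψ, ⟨δ, h0, h1.trans_le (min_le_right _ _)⟩)
    (h1.trans_le (min_le_left _ _))
  obtain ⟨f, a1, a2⟩ := R.graph H
  exact ⟨f, a1, by rw [a2 t ψ (by rw [ht]), ht]⟩

end Vale.Agent.P097B
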