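import Mathlib

/-! # P097B : the support function of a planar set -/

namespace Vale.Agent.P097B.Arc

/-- The support function of `Ω`: the supremum over `z` in `Ω` of the scalar product of `z` with
the unit vector of direction `θ`. -/
noncomputable def supp (Ω : Set ℂ) (θ : ℝ) : ℝ :=
  sSup ((fun z : ℂ => z.re * Real.cos θ + z.im * Real.sin θ) '' Ω)

end Vale.Agent.P097B.Arc
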