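import Vale.Agent.P097B.Arc
import Vale.Agent.P097B.SupD

/-! # P097B : the dictionary, for the support function of the table itself -/

set_option linter.all false

namespace Vale.Agent.P097B.Arc

open Real Set Filter Topology Vale.Agent.P097

variable {Ω : Set ℂ} {L : ℝ} {Γ : ℝ → ℂ} {h : ℝ → ℝ}

theorem bdry_dot (h : ℝ → ℝ) (θ x : ℝ) :
    (bdry h x).re * cos θ + (bdry h x).im * sin θ = K h θ x := by
  have cs := cos_sq_add_sin_sq θ
  rw [bdry_eq h θ x]
  simp only [Complex.mul_re, Complex.add_re, Complex.add_im, Complex.mul_im,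
    Complex.ofReal_re, Complex.ofReal_im, Complex.I_re, Complex.I_im,
    Complex.exp_ofReal_mul_I_re, Complex.exp_ofReal_mul_I_im]
  linear_combination (K h θ x) * cs

theorem bdry_per (H : SmoothTable h) : Function.Periodic (bdry h) (2 * π) := fun x => by
  rw [bdry_rot H.2.1]
  push_cast
  rw [Complex.exp_two_pi_mul_I, mul_one]

theorem dot_le (H : SmoothTable h) (θ x : ℝ) :
    (bdry h x).re * cos θ + (bdry h x).im * sin θ ≤ h θ := by
  have hp := pi_pos
  obtain ⟨y, hy, e⟩ := (bdry_per H).exists_mem_Ioc (by positivity) x (θ - π)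
  rw [e, bdry_dot, ← K_self h θ]
  rcases le_total y θ with a | a
  · exact (Sm.K_strictMono (adm H) θ).monotoneOn ⟨hy.1.le, a⟩ ⟨by linarith, le_rfl⟩ a
  · exact (Sm.K_strictAnti (adm H) θ).antitoneOn ⟨le_rfl, by linarith⟩ ⟨a, by linarith [hy.2]⟩ a

theorem supp_eq (H : SmoothTable h) (op : IsOpen Ω) (bo : Bornology.IsBounded Ω)
    (rg : range (bdry h) = frontier Ω) : supp Ω = h := by
  funext θ
  let f : ℂ → ℝ := fun z => z.re * cos θ + z.im * sin θ
  have cf : Continuous f := by fun_prop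
  have cs := cos_sq_add_sin_sq θ
  have m : bdry h θ ∈ closure Ω := frontier_subset_closure (rg ▸ mem_range_self θ)
  have ne : Ω.Nonempty := closure_nonempty_iff.1 ⟨_, m⟩
  obtain ⟨w, w1, w2⟩ := bo.isCompact_closure.exists_isMaxOn ⟨_, m⟩ cf.continuousOn
  have w3 : w ∉ Ω := by
    intro hw
    have c : Continuous fun t : ℝ => w + (⟨t * cos θ, t * sin θ⟩ : ℂ) :=
      continuous_const.add (cmk.comp (by fun_prop : Continuous fun t : ℝ => (t * cos θ, t * sin θ)))
    have e : ∀ᶠ t : ℝ in 𝓝 0, w + (⟨t * cos θ, t * sin θ⟩ : ℂ) ∈ Ω :=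
      c.continuousAt.eventually (op.mem_nhds (by
        convert hw using 1
        apply Complex.ext <;> simp))
    obtain ⟨t, t0, ht⟩ := ((frequently_gt_nhds (0 : ℝ)).and_eventually e).exists
    have := w2 (subset_closure ht)
    simp only [f, mem_setOf_eq, Complex.add_re, Complex.add_im] at this
    nlinarith
  obtain ⟨x, rfl⟩ : w ∈ range (bdry h) := by rw [rg, op.frontier_eq]; exact ⟨w1, w3⟩
  have ub : ∀ z ∈ Ω, f z ≤ h θ := fun z hz => (w2 (subset_closure hz)).trans (dot_le H θ x)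
  refine IsLUB.csSup_eq ⟨?_, fun b hb => ?_⟩ (ne.image _)
  · rintro _ ⟨z, hz, rfl⟩
    exact ub z hz
  · have := closure_minimal (s := Ω) (t := {z | f z ≤ b}) (fun z hz => hb ⟨z, hz, rfl⟩)
      (isClosed_le cf continuous_const) m
    simp only [f, mem_setOf_eq, bdry_dot, K_self] at this
    exact this

/-- the dictionary between a table and its support function -/
theorem dict (T : Table Ω L Γ) : SmoothTable (supp Ω) ∧ range (bdry (supp Ω)) = frontier Ω ∧
    (Filled L Γ ↔ ∃ η : ℝ, 0 < η ∧ Collar (supp Ω) η) ∧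
    (H407.IsEllipse (supp Ω) → IsEllipse Ω) := by
  obtain ⟨h, a, b, c, d⟩ := bridge T
  rw [supp_eq a T.1 T.2.1 b]
  exact ⟨a, b, c, d⟩

theorem infinite_angles (T : Table Ω L Γ) {P : ℂ → Prop} (hP : {z ∈ frontier Ω | P z}.Infinite) :
    {ψ ∈ Icc 0 (2 * π) | P (bdry (supp Ω) ψ)}.Infinite := by
  obtain ⟨a, b, -⟩ := dict T
  refine Infinite.of_image (bdry (supp Ω)) (hP.mono ?_)
  rintro z ⟨h1, h2⟩
  obtain ⟨x, rfl⟩ : z ∈ range _ := b ▸ h1
  obtain ⟨y, hy, e⟩ := (bdry_per a).exists_mem_Ico₀ (by positivity) x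
  exact ⟨y, ⟨⟨hy.1, hy.2.le⟩, e ▸ h2⟩, e.symm⟩

end Vale.Agent.P097B.Arc
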